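import Vale.Agent.P011.H505.WangF
import Vale.Agent.P011.H428.SukFF
import Vale.Agent.P011.Hey.H63.PlaceRes
import Vale.Agent.P011.Hey.Fin0

/-!
The reduced Whitehead group and the reduced unitary Whitehead group are trivial over global
function fields of characteristic different from two.
-/

set_option linter.unusedSectionVars false
set_option linter.unusedSimpArgs false

open Matrix Module

namespace Vale.Agent.P011.H505.Wang

open Vale.Agent.P011.H271 Vale.Agent.P011.H305 Vale.Agent.P011.Hey

/-- All reduced norms over all finite extensions of a global function field are surjective. -/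
theorem nsur_ff (F : Type) [Field F] [GFF F] : NSur F := by
  intro E _ _ _ C _ _ _ _ d hC y _
  have hE : GFF E := Hey.H63.gff_of_finite (k := F)
  have hi : Infinite E := gff_infinite E
  obtain ⟨f⟩ := Vale.Agent.P011S.exists_split (K := E) (D := C) hC (AlgebraicClosure E)
  obtain ⟨t, ht⟩ := Vale.Agent.P011.H428.exists_nrd_eq hC f y
  exact ⟨t, hasNrd_of_det hC f ht⟩

/-- **The theorem of Wang over global function fields.** -/
theorem sk1_ff {K D Ω A : Type} [Field K] [GFF K] (h2 : (2 : K) ≠ 0) [DivisionRing D] [Algebra K D]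
    [FiniteDimensional K D] [Algebra.IsCentral K D] [Field Ω] [Algebra K Ω] [CommGroup A]
    (F0 : D → A) (hmul : ∀ a b : D, a ≠ 0 → b ≠ 0 → F0 (a * b) = F0 a * F0 b)
    (hneg : F0 (-1) = 1) {d : ℕ} (hD : finrank K D = d ^ 2)
    (f : D →ₐ[K] Matrix (Fin d) (Fin d) Ω) {u : D} (hu : (f u).det = 1) : F0 u = 1 := by
  have hi : Infinite K := gff_infinite K
  exact sk1_gen F0 hmul hneg (nsur_ff K) h2 hD f hu

variable {k K D Ω : Type} [Field k] [Field K] [StarRing K] [DivisionRing D] [StarRing D]
  [Algebra k K] [Algebra k D] [Algebra K D] [IsScalarTower k K D] [Field Ω] [Algebra K Ω]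
  {d : kˣ} {s : K} {n : ℕ} {A : Type} [CommGroup A]

/-- **The reduced unitary Whitehead group is trivial over global function fields.** -/
theorem suk_all_ff [GFF k] (hS : SetF k K D d s) (hdeg : finrank K D = n ^ 2)
    (f : D →ₐ[K] Matrix (Fin n) (Fin n) Ω) (F0 : D → A)
    (hmul : ∀ a b : D, a ≠ 0 → b ≠ 0 → F0 (a * b) = F0 a * F0 b)
    (hsym : ∀ s : D, s ≠ 0 → star s = s → F0 s = 1) {Z : D} (hZ : Z ≠ 0)
    (h : (f (star Z)).det = (f Z).det) : F0 Z = 1 := by
  have := hS.fin
  have := hS.cen
  have hkK : FiniteDimensional k K := Vale.Agent.P011.H428.fin_kK hS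
  have hK : GFF K := Hey.H63.gff_of_finite (k := k)
  have h2 : (2 : K) ≠ 0 := by
    rw [← map_ofNat (algebraMap k K) 2]
    exact (_root_.map_ne_zero _).mpr hS.two_ne
  refine Vale.Agent.P011.H428.suk_all_of hS hdeg f F0 hmul hsym (fun u _ hu1 => ?_) hZ h
  exact sk1_ff h2 F0 hmul (hsym (-1) (neg_ne_zero.mpr one_ne_zero)
    (by rw [star_neg, star_one])) hdeg f hu1

end Vale.Agent.P011.H505.Wang
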