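import Vale.Agent.P011.H505.WangA

/-!
The division part of a base change of a central division algebra, in every characteristic.
-/

set_option linter.unusedSectionVars false
set_option linter.unusedSimpArgs false

open Matrix Module TensorProduct Polynomial

namespace Vale.Agent.P011.H505.Wang

open Vale.Agent.P011S (bcf bcf_one_tmul exists_wed exists_split mdU mdU_diagonal trf trf_one_tmul)
open Vale.Agent.P011.W (Spl HasNrd spl_iff deg_pos exists_maxfield spl_of_maxfield norm_maxfield)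

/-- the reduced norm on a maximal subfield -/
theorem hasNrd_norm {F D : Type} [Field F] [Infinite F] [DivisionRing D] [Algebra F D]
    [FiniteDimensional F D] [Algebra.IsCentral F D] {d : ℕ} (hD : finrank F D = d ^ 2) {L : Type}
    [Field L] [Algebra F L] (hL : finrank F L = d) (j : L →ₐ[F] D) (x : L) :
    HasNrd F d (j x) (Algebra.norm F x) := by
  intro Ω _ _ f
  have hd := deg_pos hD
  have hfinL : FiniteDimensional F L := Module.finite_of_finrank_pos (by rw [hL]; exact hd)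
  let b : Basis (Fin d) F L := Module.finBasisOfFinrankEq F L hL
  obtain ⟨P, hP⟩ : ∃ P, P = (f (j x)).charpoly := ⟨_, rfl⟩
  obtain ⟨Q, hQ⟩ : ∃ Q, Q = (Algebra.leftMulMatrix b x).charpoly.map (algebraMap F Ω) := ⟨_, rfl⟩
  have hPm : P.Monic := by rw [hP]; exact Matrix.charpoly_monic _
  have hQm : Q.Monic := by rw [hQ]; exact (Matrix.charpoly_monic _).map _
  have hev : ∀ c : F, (P ^ d).eval (algebraMap F Ω c) = (Q ^ d).eval (algebraMap F Ω c) := by
    intro c
    have h1 : P.eval (algebraMap F Ω c) = (f (j (algebraMap F L c - x))).det := by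
      rw [hP, Matrix.eval_charpoly, map_sub, map_sub, AlgHom.commutes, AlgHom.commutes]
      rfl
    have h2 : Q.eval (algebraMap F Ω c) =
        algebraMap F Ω (Algebra.norm F (algebraMap F L c - x)) := by
      rw [hQ, eval_map_apply, Matrix.eval_charpoly, Algebra.norm_eq_matrix_det b, map_sub,
        AlgHom.commutes]
      rfl
    rw [eval_pow, eval_pow, h1, h2, ← Vale.Agent.P011S.SF.norm_eq_det_pow hd hD f,
      norm_maxfield hD hL, map_pow]
  have hPQ : P ^ d = Q ^ d := by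
    refine Polynomial.eq_of_infinite_eval_eq _ _ ?_
    refine (Set.infinite_range_of_injective (algebraMap F Ω).injective).mono ?_
    rintro _ ⟨c, rfl⟩
    exact hev c
  have h1 : P ∣ Q := (UniqueFactorizationMonoid.pow_dvd_pow_iff_dvd hd.ne').mp hPQ.dvd
  have h2 : Q ∣ P := (UniqueFactorizationMonoid.pow_dvd_pow_iff_dvd hd.ne').mp hPQ.symm.dvd
  have h3 : P = Q := eq_of_monic_of_associated hPm hQm (associated_of_dvd_dvd h1 h2)
  rw [Matrix.det_eq_sign_charpoly_coeff, ← hP, h3, hQ, coeff_map,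
    Algebra.norm_eq_matrix_det b, Matrix.det_eq_sign_charpoly_coeff (Algebra.leftMulMatrix b x)]
  simp only [map_mul, map_pow, map_neg, map_one]

/-- the determinant in one splitting is the reduced norm -/
theorem hasNrd_of_det {F D Ω : Type} [Field F] [Infinite F] [DivisionRing D] [Algebra F D]
    [FiniteDimensional F D] [Algebra.IsCentral F D] {d : ℕ} (hD : finrank F D = d ^ 2) [Field Ω]
    [Algebra F Ω] (f : D →ₐ[F] Matrix (Fin d) (Fin d) Ω) {t : D} {y : F}
    (h : (f t).det = algebraMap F Ω y) : HasNrd F d t y := by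
  obtain ⟨L, _, _, _, j, u, hL, rfl⟩ := exists_maxfield hD t
  have h1 := hasNrd_norm hD hL j u
  have h2 := h1 Ω f
  rw [h] at h2
  rwa [(algebraMap F Ω).injective h2]



section

variable {F D : Type} [Field F] [DivisionRing D] [Algebra F D]
  [FiniteDimensional F D] [Algebra.IsCentral F D] {d : ℕ}

/-- The division part of a base change, with the isomorphism. -/
theorem exists_part' (hD : finrank F D = d ^ 2) (E : Type) [Field E] [Algebra F E] :
    ∃ (n q : ℕ) (_ : NeZero n) (Δ : Type) (_ : DivisionRing Δ) (_ : Algebra E Δ)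
      (_ : FiniteDimensional E Δ) (_ : Algebra.IsCentral E Δ)
      (_ : E ⊗[F] D ≃ₐ[E] Matrix (Fin n) (Fin n) Δ), n * q = d ∧ finrank E Δ = q ^ 2 := by
  obtain ⟨n, hn, Δ, i1, i2, i3, i4, ψ, h1⟩ := exists_wed (E := E) hD
  obtain ⟨g⟩ := exists_split (K := F) (D := D) hD (AlgebraicClosure E)
  let G : Matrix (Fin n) (Fin n) Δ →ₐ[E] Matrix (Fin d) (Fin d) (AlgebraicClosure E) :=
    (bcf g).comp (ψ.symm : Matrix (Fin n) (Fin n) Δ →ₐ[E] E ⊗[F] D)
  have h2 := corner_dim G
  obtain ⟨q, hq⟩ : ∃ q, q = finrank (AlgebraicClosure E) (cW G) := ⟨_, rfl⟩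
  rw [← hq] at h2
  have hnpos : 0 < n := Nat.pos_of_ne_zero (NeZero.ne n)
  have h3 : finrank E Δ = q ^ 2 := by
    rw [← h2, mul_pow] at h1
    exact Nat.eq_of_mul_eq_mul_left (pow_pos hnpos 2) h1
  exact ⟨n, q, hn, Δ, i1, i2, i3, i4, ψ, h2, h3⟩

omit [FiniteDimensional F D] [Algebra.IsCentral F D] in
/-- The splitting of the matrix algebra from a splitting of the division part. -/
theorem spl_of_part {E : Type} [Field E] [Algebra F E] {n q : ℕ} {Δ : Type} [DivisionRing Δ]
    [Algebra E Δ] (ψ : E ⊗[F] D ≃ₐ[E] Matrix (Fin n) (Fin n) Δ) (hnq : n * q = d)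
    {R : Type} [Field R] [Algebra E R] [Algebra F R] [IsScalarTower F E R]
    (f2 : Δ →ₐ[E] Matrix (Fin q) (Fin q) R) : Nonempty (D →ₐ[F] Matrix (Fin d) (Fin d) R) := by
  subst hnq
  let g1 : D →ₐ[F] E ⊗[F] D := Algebra.TensorProduct.includeRight
  let g2 : E ⊗[F] D →ₐ[E] Matrix (Fin n × Fin q) (Fin n × Fin q) R :=
    ((Matrix.compAlgEquiv (Fin n) (Fin q) R E).toAlgHom.comp
      (f2.mapMatrix : Matrix (Fin n) (Fin n) Δ →ₐ[E] _)).comp ψ.toAlgHom
  let g3 : Matrix (Fin n × Fin q) (Fin n × Fin q) R →ₐ[E]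
      Matrix (Fin (n * q)) (Fin (n * q)) R :=
    (Matrix.reindexAlgEquiv E R finProdFinEquiv).toAlgHom
  exact ⟨((g3.comp g2).restrictScalars F).comp g1⟩

/-- A7 the division part of a base change -/
theorem exists_part (hD : finrank F D = d ^ 2) (E : Type) [Field E] [Algebra F E] :
    ∃ (n q : ℕ) (Δ : Type) (_ : DivisionRing Δ) (_ : Algebra E Δ) (_ : FiniteDimensional E Δ)
      (_ : Algebra.IsCentral E Δ), n * q = d ∧ 0 < n ∧ finrank E Δ = q ^ 2 ∧
      ∀ (R : Type) [Field R] (φ : E →+* R), Spl D d (φ.comp (algebraMap F E)) ↔ Spl Δ q φ := by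
  obtain ⟨n, q, hn, Δ, i1, i2, i3, i4, ψ, h1, h2⟩ := exists_part' hD E
  refine ⟨n, q, Δ, i1, i2, i3, i4, h1, Nat.pos_of_ne_zero (NeZero.ne n), h2, ?_⟩
  intro R _ φ
  let _ : Algebra E R := φ.toAlgebra
  let _ : Algebra F R := (φ.comp (algebraMap F E)).toAlgebra
  have : IsScalarTower F E R := IsScalarTower.of_algebraMap_eq fun x => rfl
  have e1 : Spl D d (φ.comp (algebraMap F E)) ↔ Nonempty (D →ₐ[F] Matrix (Fin d) (Fin d) R) :=
    spl_iff (F := F) (R := R)
  have e2 : Spl Δ q φ ↔ Nonempty (Δ →ₐ[E] Matrix (Fin q) (Fin q) R) :=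
    spl_iff (F := E) (R := R)
  rw [e1, e2]
  constructor
  · rintro ⟨g⟩
    let G : Matrix (Fin n) (Fin n) Δ →ₐ[E] Matrix (Fin d) (Fin d) R :=
      (bcf g).comp (ψ.symm : Matrix (Fin n) (Fin n) Δ →ₐ[E] E ⊗[F] D)
    obtain ⟨f2, _⟩ := exists_corner G h1
    exact ⟨f2⟩
  · rintro ⟨f2⟩
    exact spl_of_part ψ h1 f2

omit [Algebra.IsCentral F D] in
/-- A8 the degree divides the degree of a finite splitting field -/
theorem dvd_of_spl (hD : finrank F D = d ^ 2) (M : Type) [Field M] [Algebra F M]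
    [FiniteDimensional F M] (h : Spl D d (algebraMap F M)) : d ∣ finrank F M := by
  obtain ⟨f⟩ := spl_iff.mp h
  exact corner_dvd hD (deg_pos hD) f

end



/-- Matrices of size one. -/
def oneEquiv (E Δ : Type) [Field E] [DivisionRing Δ] [Algebra E Δ] :
    Matrix (Fin 1) (Fin 1) Δ ≃ₐ[E] Δ where
  toFun A := A 0 0
  invFun x := Matrix.of fun _ _ => x
  left_inv A := by
    ext i j
    rw [Subsingleton.elim i 0, Subsingleton.elim j 0]
    rfl
  right_inv x := rfl
  map_mul' A B := by rw [Matrix.mul_apply, Fin.sum_univ_one]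
  map_add' A B := rfl
  commutes' c := by rw [Matrix.algebraMap_matrix_apply, if_pos rfl]

section

variable {F D : Type} [Field F] [DivisionRing D] [Algebra F D]
  [FiniteDimensional F D] [Algebra.IsCentral F D]

/-- The base change to an extension of degree prime to the index is a division algebra. -/
theorem exists_coprime' {p e : ℕ} (hp : p.Prime) (hD : finrank F D = (p ^ e) ^ 2)
    (E : Type) [Field E] [Algebra F E] [FiniteDimensional F E] (hE : Nat.Coprime (finrank F E) p) :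
    ∃ (D' : Type) (_ : DivisionRing D') (_ : Algebra E D') (_ : FiniteDimensional E D')
      (_ : Algebra.IsCentral E D') (_ : E ⊗[F] D ≃ₐ[E] D'), finrank E D' = (p ^ e) ^ 2 := by
  obtain ⟨n, q, hn, Δ, i1, i2, i3, i4, ψ, hnq, hq⟩ := exists_part' hD E
  have hq0 : 0 < q := deg_pos hq
  have hn1 : n = 1 := by
    obtain ⟨L, j1, j2, j3, j, u, hL, _⟩ := exists_maxfield (F := E) (D := Δ) hq 1
    obtain ⟨f2⟩ := spl_iff.mp (spl_of_maxfield hq hL j)
    let _ : Algebra F L := ((algebraMap E L).comp (algebraMap F E)).toAlgebra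
    have : IsScalarTower F E L := IsScalarTower.of_algebraMap_eq fun x => rfl
    have : FiniteDimensional F L := Module.Finite.trans E L
    have h1 := spl_of_part ψ hnq f2
    have h2 := dvd_of_spl hD L (spl_iff.mpr h1)
    rw [← finrank_mul_finrank F E L, hL] at h2
    have h3 : p ^ e ∣ q := (Nat.Coprime.pow_left e (Nat.coprime_comm.mp hE)).dvd_of_dvd_mul_left h2
    rw [← hnq] at h3
    have h4 := Nat.le_of_dvd hq0 h3
    have h5 : 0 < n := Nat.pos_of_ne_zero (NeZero.ne n)
    nlinarith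
  subst hn1
  rw [one_mul] at hnq
  subst hnq
  exact ⟨Δ, i1, i2, i3, i4, ψ.trans (oneEquiv E Δ), hq⟩

/-- A9 extensions of degree prime to `p` -/
theorem exists_coprime {p e : ℕ} (hp : p.Prime) (hD : finrank F D = (p ^ e) ^ 2)
    (E : Type) [Field E] [Algebra F E] [FiniteDimensional F E] (hE : Nat.Coprime (finrank F E) p) :
    ∃ (D' : Type) (_ : DivisionRing D') (_ : Algebra E D') (_ : FiniteDimensional E D')
      (_ : Algebra.IsCentral E D') (ι : D →+* D'), finrank E D' = (p ^ e) ^ 2 ∧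
      (∀ x : F, ι (algebraMap F D x) = algebraMap E D' (algebraMap F E x)) ∧
      (∀ (x : D) (y : F), HasNrd F (p ^ e) x y → HasNrd E (p ^ e) (ι x) (algebraMap F E y)) ∧
      ∀ (A : Type) [CommGroup A] (F0 : D → A)
        (_ : ∀ a b : D, a ≠ 0 → b ≠ 0 → F0 (a * b) = F0 a * F0 b) (_ : F0 (-1) = 1),
        ∃ F1 : D' → A, (∀ a b : D', a ≠ 0 → b ≠ 0 → F1 (a * b) = F1 a * F1 b) ∧ F1 (-1) = 1 ∧
          ∀ u : D, u ≠ 0 → F1 (ι u) = F0 u ^ finrank F E := by
  classical
  obtain ⟨D', i1, i2, i3, i4, ψ, h1⟩ := exists_coprime' hp hD E hE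
  let ι : D →+* D' := (ψ : E ⊗[F] D →+* D').comp
    ((Algebra.TensorProduct.includeRight : D →ₐ[F] E ⊗[F] D) : D →+* E ⊗[F] D)
  have hι : ∀ x : D, ι x = ψ (1 ⊗ₜ x) := fun x => rfl
  have hιF : ∀ x : F, ι (algebraMap F D x) = algebraMap E D' (algebraMap F E x) := by
    intro x
    have h2 : (1 : E) ⊗ₜ[F] (algebraMap F D x) = (algebraMap F E x) ⊗ₜ[F] (1 : D) := by
      rw [Algebra.algebraMap_eq_smul_one, Algebra.algebraMap_eq_smul_one, TensorProduct.tmul_smul,
        TensorProduct.smul_tmul']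
    rw [hι, ← ψ.commutes, Algebra.TensorProduct.algebraMap_apply, h2]
    rfl
  refine ⟨D', i1, i2, i3, i4, ι, h1, hιF, ?_, ?_⟩
  · intro x y hxy Ω _ _ f
    let _ : Algebra F Ω := ((algebraMap E Ω).comp (algebraMap F E)).toAlgebra
    let f' : D →ₐ[F] Matrix (Fin (p ^ e)) (Fin (p ^ e)) Ω :=
      { (f : D' →+* Matrix (Fin (p ^ e)) (Fin (p ^ e)) Ω).comp ι with
        commutes' := fun c => by
          change f (ι (algebraMap F D c)) = _
          rw [hιF, f.commutes]
          rfl }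
    exact hxy Ω f'
  · intro A _ F0 hmul hneg
    let b := finBasis F E
    let θ : (D')ˣ →* A := (mdU F0 hmul hneg (finrank F E)).comp
      (Units.map (((trf b : E ⊗[F] D →ₐ[F] _) : E ⊗[F] D →* _).comp
        (ψ.symm : D' →* E ⊗[F] D)))
    let F1 : D' → A := fun x => if h : x = 0 then 1 else θ (Units.mk0 x h)
    have hF1 : ∀ (x : D') (h : x ≠ 0), F1 x = θ (Units.mk0 x h) := fun x h => dif_neg h
    have hF1ι : ∀ u : D, u ≠ 0 → F1 (ι u) = F0 u ^ finrank F E := by
      intro u hu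
      have hu' : ι u ≠ 0 := fun h => hu (ι.injective (h.trans (map_zero ι).symm))
      rw [hF1 _ hu']
      change mdU F0 hmul hneg (finrank F E) _ = _
      rw [mdU_diagonal F0 hmul hneg _ (fun _ => u) (fun _ => hu), Finset.prod_const,
        Finset.card_univ, Fintype.card_fin]
      change trf b (ψ.symm (ψ (1 ⊗ₜ u))) = _
      rw [ψ.symm_apply_apply, trf_one_tmul]
    refine ⟨F1, ?_, ?_, hF1ι⟩
    · intro x y hx hy
      rw [hF1 _ hx, hF1 _ hy, hF1 _ (mul_ne_zero hx hy), ← map_mul]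
      congr 1
      exact Units.ext rfl
    · have h2 : (-1 : D') = ι (-1) := by rw [map_neg, map_one]
      rw [h2, hF1ι _ (neg_ne_zero.mpr one_ne_zero), hneg, one_pow]

end


end Vale.Agent.P011.H505.Wang
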