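import Vale.Agent.P011.H73.ND
import Vale.Agent.P011.Even.Defs

/-!
Two lemmas on the cubic norm structure of a division algebra of degree three with an involution of
the second kind: a symmetric element orthogonal to `z` whose adjoint is not orthogonal to `z`, and
the nonspecial condition for global pairs.
-/

open Module

set_option linter.unusedSectionVars false

namespace Vale.Agent.P011.H505

open H775 Vale.Agent.P011.Even

section cub

variable {K D : Type} [Field K] [DivisionRing D] [Algebra K D] (C : Cub K D)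

/-- The linearised identity `x adj x = N x`. -/
theorem lin_adj (h2 : (2 : K) ≠ 0) (z x : D) :
    z * C.cr z x + x * C.adj z = C.T (C.adj z * x) • (1 : D) := by
  have h1 := C.mul_adj (z + x)
  have h3 := C.mul_adj (z + -x)
  have h4 : C.cr z (-x) = -C.cr z x := by
    have := C.cr_smul_right (-1) z x
    rwa [neg_smul, one_smul, neg_one_smul] at this
  rw [C.adj_add, C.N_add, C.adj_neg, C.N_neg, h4, mul_neg, map_neg] at h3
  rw [C.adj_add, C.N_add] at h1
  have h5 : (2 : K) • (z * C.cr z x + x * C.adj z + x * C.adj x) =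
      (2 : K) • (C.T (C.adj z * x) • (1 : D) + C.N x • (1 : D)) := by
    have h6 : (z + x) * (C.adj z + C.adj x + C.cr z x) -
        (z + -x) * (C.adj z + C.adj x + -C.cr z x) =
        2 * (z * C.cr z x + x * C.adj z + x * C.adj x) := by
      rw [two_mul]
      noncomm_ring
    rw [h1, h3, ← sub_smul] at h6
    rw [ofNat_smul_eq_nsmul, nsmul_eq_mul, Nat.cast_ofNat, ← h6, ← add_smul, smul_smul]
    congr 1
    ring
  have h7 := smul_right_injective D h2 h5
  rw [C.mul_adj] at h7
  exact add_right_cancel h7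

/-- The cross product with a nonzero element is injective. -/
theorem cr_inj (h2 : (2 : K) ≠ 0) {z x : D} (hz : z ≠ 0) (h : C.cr z x = 0) : x = 0 := by
  have h1 := lin_adj C h2 z x
  rw [h, mul_zero, zero_add] at h1
  have h3 : C.T (C.adj z * x) = 0 := by
    have h4 := congrArg C.T h1
    rw [map_smul, C.T_one, C.T_comm, smul_eq_mul] at h4
    have h5 : (2 : K) * C.T (C.adj z * x) = 0 := by linear_combination -h4
    exact (mul_eq_zero.mp h5).resolve_left h2
  rw [h3, zero_smul] at h1
  exact (mul_eq_zero.mp h1).resolve_right (C.adj_ne_zero hz)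

include C in
/-- An element whose square is a scalar is a scalar. -/
theorem mem_of_sq {w : D} {e : K} (h : w * w = e • (1 : D)) :
    w ∈ Set.range (algebraMap K D) := by
  by_cases hw : w = 0
  · exact ⟨0, by rw [hw, map_zero]⟩
  have he : e ≠ 0 := by
    rintro rfl
    rw [zero_smul] at h
    exact hw (mul_self_eq_zero.mp h)
  have h1 : C.N w * C.N w = e ^ 3 := by
    rw [← C.N_mul, h, C.N_smul, C.N_one, mul_one]
  obtain ⟨c, hc⟩ : ∃ c, c = C.N w / e := ⟨_, rfl⟩
  have h2 : c * c = e := by
    rw [hc]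
    field_simp
    linear_combination h1
  have h3 : (w - algebraMap K D c) * (w + algebraMap K D c) = 0 := by
    have h4 : algebraMap K D c * w = w * algebraMap K D c := Algebra.commutes c w
    rw [sub_mul, mul_add, mul_add, h4, h, ← map_mul, h2, ← Algebra.algebraMap_eq_smul_one]
    abel
  rcases mul_eq_zero.mp h3 with h4 | h4
  · exact ⟨c, (sub_eq_zero.mp h4).symm⟩
  · exact ⟨-c, by rw [map_neg]; exact (eq_neg_of_add_eq_zero_left h4).symm⟩

include C in
/-- If the square of `h` commutes with `w`, then `h` commutes with `w`. -/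
theorem comm_of_sq {h w : D} (hw : h * h * w = w * (h * h)) : h * w = w * h := by
  by_cases h0 : h * h + C.S h • (1 : D) = 0
  · obtain ⟨c, rfl⟩ := mem_of_sq C (w := h) (e := -C.S h) (by
      rw [neg_smul]
      exact eq_neg_of_add_eq_zero_left h0)
    exact Algebra.commutes c w
  · have h1 := C.cayley h
    have h2 : (h * h + C.S h • (1 : D)) * h = C.T h • (h * h) + C.N h • (1 : D) := by
      rw [add_mul, smul_mul_assoc, one_mul, ← sub_eq_zero, ← h1]
      abel
    have h3 : (h * h + C.S h • (1 : D)) * w = w * (h * h + C.S h • (1 : D)) := by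
      rw [add_mul, mul_add, hw, smul_mul_assoc, mul_smul_comm, one_mul, mul_one]
    have h4 : (C.T h • (h * h) + C.N h • (1 : D)) * w =
        w * (C.T h • (h * h) + C.N h • (1 : D)) := by
      rw [add_mul, mul_add, smul_mul_assoc, smul_mul_assoc, mul_smul_comm, mul_smul_comm, hw,
        one_mul, mul_one]
    apply mul_left_cancel₀ h0
    rw [← mul_assoc, h2, h4, ← h2, ← mul_assoc, ← mul_assoc, h3]

include C in
/-- **The nonspecial condition for global pairs.** -/
theorem nonspec_global {x w g : D} (hw : w ∉ Set.range (algebraMap K D)) (hx : x ≠ 1)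
    (hg : g ≠ 0) (h : x * w * g = g * w) (e : K) : w * (x - 1) * w ≠ e • (x⁻¹ - 1) := by
  intro he
  have hw0 : w ≠ 0 := by
    rintro rfl
    exact hw ⟨0, map_zero _⟩
  have hx0 : x ≠ 0 := by
    rintro rfl
    rw [zero_mul, zero_mul] at h
    exact mul_ne_zero hg hw0 h.symm
  obtain ⟨M, hM⟩ : ∃ M, M = x - 1 := ⟨_, rfl⟩
  have hM0 : M ≠ 0 := by
    rw [hM]
    exact sub_ne_zero.mpr hx
  have h1 : x * w * M * w = (-e) • M := by
    have h2 : x * (w * (x - 1) * w) = x * (e • (x⁻¹ - 1)) := by rw [he]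
    rw [mul_smul_comm, mul_sub x x⁻¹, mul_inv_cancel₀ hx0, mul_one] at h2
    rw [hM, neg_smul, ← smul_neg, neg_sub, ← h2]
    simp only [mul_assoc]
  have he0 : -e ≠ 0 := by
    intro h0
    rw [h0, zero_smul] at h1
    exact mul_ne_zero (mul_ne_zero (mul_ne_zero hx0 hw0) hM0) hw0 h1
  -- the element `u = M⁻¹ g` inverts `w` up to a scalar
  obtain ⟨u, hu⟩ : ∃ u, u = M⁻¹ * g := ⟨_, rfl⟩
  have hg' : g = M * u := by rw [hu, ← mul_assoc, mul_inv_cancel₀ hM0, one_mul]
  have hu0 : u ≠ 0 := by
    rintro rfl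
    rw [mul_zero] at hg'
    exact hg hg'
  have h3 : u * w = (-e) • (w⁻¹ * u) := by
    apply mul_left_cancel₀ hM0
    have h4 : x * w * M = (-e) • (M * w⁻¹) := by
      rw [← smul_mul_assoc, ← h1, mul_assoc (x * w * M), mul_inv_cancel₀ hw0, mul_one]
    rw [← mul_assoc, ← hg', ← h, hg', ← mul_assoc, h4, smul_mul_assoc, mul_smul_comm, mul_assoc]
  have h5 : u * w⁻¹ = (-e)⁻¹ • (w * u) := by
    apply mul_right_cancel₀ hw0
    rw [mul_assoc, inv_mul_cancel₀ hw0, mul_one, smul_mul_assoc, mul_assoc, h3, mul_smul_comm,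
      smul_smul, inv_mul_cancel₀ he0, one_smul, ← mul_assoc, mul_inv_cancel₀ hw0, one_mul]
  have h6 : u * u * w = w * (u * u) := by
    rw [mul_assoc, h3, mul_smul_comm, ← mul_assoc, h5, smul_mul_assoc, smul_smul,
      mul_inv_cancel₀ he0, one_smul, mul_assoc]
  have h7 := comm_of_sq C h6
  rw [h7] at h3
  have h8 : w = (-e) • w⁻¹ := by
    apply mul_right_cancel₀ hu0
    rw [h3, smul_mul_assoc]
  apply hw
  refine mem_of_sq C (e := -e) ?_
  nth_rewrite 1 [h8]
  rw [smul_mul_assoc, inv_mul_cancel₀ hw0]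

end cub

section sym

variable {k K D : Type} [Field k] [NumberField k] [Field K] [StarRing K]
    [DivisionRing D] [StarRing D] [Algebra k K] [Algebra k D] [Algebra K D] [IsScalarTower k K D]
    {d : kˣ} {s : K}

/-- **A symmetric element orthogonal to `z` whose adjoint is not orthogonal to `z`.** -/
theorem exists_xi8' (hS : Setting k K D d s) (C : Cub K D) (h9 : finrank K D = 3 ^ 2) {z : D}
    (hz : z ≠ 0) :
    ∃ ξ : D, star ξ = ξ ∧ C.T (z * ξ) = 0 ∧ C.T (z * C.adj ξ) ≠ 0 := by
  have := hS.fin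
  have := hS.cen
  have hk0 : CharZero K := charZero_of_injective_algebraMap (algebraMap k K).injective
  have h20 : (2 : K) ≠ 0 := by norm_num
  have hs0 : s ≠ 0 := by
    intro h0
    have h := hS.sq
    rw [h0, zero_pow (by norm_num)] at h
    exact (_root_.map_ne_zero (algebraMap k K)).2 d.ne_zero h.symm
  have hss : ∀ c : K, star (algebraMap K D c) = algebraMap K D (star c) := fun c => by
    rw [Algebra.algebraMap_eq_smul_one, hS.star_smul, star_one, ← Algebra.algebraMap_eq_smul_one]
  have hTs : ∀ x, C.T (star x) = star (C.T x) := fun x => (C.star_coeff h9 hss x).1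
  have hsp : ∀ x : D, ∃ a b : D, star a = a ∧ star b = b ∧ x = a + s • b ∧
      a = (2 : K)⁻¹ • (x + star x) ∧ b = (2 * s)⁻¹ • (x - star x) := by
    intro x
    refine ⟨(2 : K)⁻¹ • (x + star x), (2 * s)⁻¹ • (x - star x), ?_, ?_, ?_, rfl, rfl⟩
    · rw [hS.star_smul, star_add, star_star, star_inv₀, star_ofNat, add_comm]
    · rw [hS.star_smul, star_sub, star_star, star_inv₀, star_mul', star_ofNat, hS.star_s, mul_neg,
        inv_neg, neg_smul, ← smul_neg, neg_sub]
    · rw [smul_smul, mul_inv, mul_left_comm, mul_inv_cancel₀ hs0, mul_one, ← smul_add,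
        add_add_sub_cancel, ← two_smul K x, smul_smul, inv_mul_cancel₀ h20, one_smul]
  by_contra hcon
  push Not at hcon
  -- polarisation
  have h1 : ∀ ξ η : D, star ξ = ξ → star η = η → C.T (z * ξ) = 0 → C.T (z * η) = 0 →
      C.T (C.cr z ξ * η) = 0 := by
    intro ξ η hξ hη h3 h4
    have h5 := hcon (ξ + η) (by rw [star_add, hξ, hη]) (by rw [mul_add, map_add, h3, h4, add_zero])
    rw [C.adj_add, mul_add, mul_add, map_add, map_add, hcon ξ hξ h3, hcon η hη h4, add_zero,
      zero_add] at h5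
    rw [C.T_cr_mul, h5]
  -- extension to `D`
  set f₁ : D →ₗ[K] K := C.T ∘ₗ LinearMap.mulLeft K z with hf₁
  set f₂ : D →ₗ[K] K := C.T ∘ₗ LinearMap.mulLeft K (star z) with hf₂
  have hf₁a : ∀ x, f₁ x = C.T (z * x) := fun _ => rfl
  have hf₂a : ∀ x, f₂ x = C.T (star z * x) := fun _ => rfl
  have h6 : ∀ x, f₁ x = 0 → f₂ x = 0 → ∃ a b : D, star a = a ∧ star b = b ∧ x = a + s • b ∧
      C.T (z * a) = 0 ∧ C.T (z * b) = 0 := by
    intro x h3 h4
    obtain ⟨a, b, ha, hb, hx, ha', hb'⟩ := hsp x
    have h5 : C.T (z * star x) = 0 := by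
      have h7 : star (star z * x) = star x * z := by rw [star_mul, star_star]
      rw [C.T_comm, ← h7, hTs, ← hf₂a, h4, star_zero]
    rw [hf₁a] at h3
    refine ⟨a, b, ha, hb, hx, ?_, ?_⟩
    · rw [ha', mul_smul_comm, map_smul, mul_add, map_add, h3, h5, add_zero, smul_zero]
    · rw [hb', mul_smul_comm, map_smul, mul_sub, map_sub, h3, h5, sub_zero, smul_zero]
  have h7 : ∀ x y, f₁ x = 0 → f₂ x = 0 → f₁ y = 0 → f₂ y = 0 → C.T (C.cr z x * y) = 0 := by
    intro x y hx1 hx2 hy1 hy2
    obtain ⟨a, b, ha, hb, rfl, ha', hb'⟩ := h6 x hx1 hx2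
    obtain ⟨a₂, b₂, ha₂, hb₂, rfl, ha₂', hb₂'⟩ := h6 y hy1 hy2
    rw [C.cr_add_right, C.cr_smul_right, add_mul, mul_add, mul_add, smul_mul_assoc,
      smul_mul_assoc, mul_smul_comm, mul_smul_comm]
    simp only [map_add, map_smul]
    rw [h1 a a₂ ha ha₂ ha' ha₂', h1 a b₂ ha hb₂ ha' hb₂', h1 b a₂ hb ha₂ hb' ha₂',
      h1 b b₂ hb hb₂ hb' hb₂']
    simp
  -- dimension count
  have hT : ∃ x, C.T x ≠ 0 := ⟨1, by rw [C.T_one]; norm_num⟩
  set U : Submodule K D := LinearMap.ker (f₁.prod f₂) with hU
  have hUm : ∀ x, x ∈ U ↔ f₁ x = 0 ∧ f₂ x = 0 := fun x => by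
    rw [hU, LinearMap.mem_ker, LinearMap.prod_apply]
    exact Prod.mk_eq_zero
  let L : D →ₗ[K] D :=
    { toFun := fun x => C.cr z x
      map_add' := fun x y => C.cr_add_right z x y
      map_smul' := fun c x => C.cr_smul_right c z x }
  have hLi : Function.Injective L := by
    rw [← LinearMap.ker_eq_bot, LinearMap.ker_eq_bot']
    exact fun x hx => cr_inj C h20 hz hx
  have h8 : ∀ x ∈ U, L x ∈ Submodule.span K {z, star z} := by
    intro x hx
    have hx' := (hUm x).mp hx
    have h9 : C.T ∘ₗ LinearMap.mulLeft K (L x) ∈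
        Submodule.span K (Set.range ![f₁, f₂]) := by
      apply mem_span_of_iInf_ker_le_ker
      intro y hy
      have hy1 : f₁ y = 0 := by
        have := (Submodule.mem_iInf _).mp hy 0
        exact this
      have hy2 : f₂ y = 0 := by
        have := (Submodule.mem_iInf _).mp hy 1
        exact this
      exact h7 x y hx'.1 hx'.2 hy1 hy2
    rw [Matrix.range_cons, Matrix.range_cons, Matrix.range_empty, Set.union_empty,
      Set.singleton_union, Submodule.mem_span_pair] at h9
    obtain ⟨a, b, hab⟩ := h9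
    rw [Submodule.mem_span_pair]
    refine ⟨a, b, ?_⟩
    rw [← sub_eq_zero]
    apply H73.ND.eq_zero_of_T C hT
    intro y
    have h10 := LinearMap.congr_fun hab y
    rw [LinearMap.add_apply, LinearMap.smul_apply, LinearMap.smul_apply, hf₁a, hf₂a,
      LinearMap.comp_apply, LinearMap.mulLeft_apply, smul_eq_mul, smul_eq_mul] at h10
    rw [sub_mul, add_mul, smul_mul_assoc, smul_mul_assoc, map_sub, map_add, map_smul, map_smul,
      smul_eq_mul, smul_eq_mul, h10, sub_self]
  have h9' : finrank K U ≤ 2 := by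
    have h10 : U.map L ≤ Submodule.span K {z, star z} := by
      rintro _ ⟨x, hx, rfl⟩
      exact h8 x hx
    have h11 := Submodule.finrank_mono h10
    rw [← LinearEquiv.finrank_eq (Submodule.equivMapOfInjective L hLi U)] at h11
    have h12 : ({z, star z} : Set D) = Set.range ![z, star z] := by
      rw [Matrix.range_cons, Matrix.range_cons, Matrix.range_empty, Set.union_empty,
        Set.singleton_union]
    rw [h12] at h11
    exact h11.trans ((finrank_range_le_card (R := K) ![z, star z]).trans (by simp))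
  have h10 := LinearMap.finrank_range_add_finrank_ker (f₁.prod f₂)
  have h11 : finrank K (LinearMap.range (f₁.prod f₂)) ≤ 2 := by
    refine (Submodule.finrank_le _).trans ?_
    rw [Module.finrank_prod, Module.finrank_self]
  rw [← hU, h9] at h10
  omega

/-- The same with the (superfluous) hypothesis `T z = 0`. -/
theorem exists_xi8 (hS : Setting k K D d s) (C : Cub K D) (h9 : finrank K D = 3 ^ 2) {z : D}
    (hz : z ≠ 0) (_hT : C.T z = 0) :
    ∃ ξ : D, star ξ = ξ ∧ C.T (z * ξ) = 0 ∧ C.T (z * C.adj ξ) ≠ 0 :=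
  exists_xi8' hS C h9 hz

end sym

end Vale.Agent.P011.H505
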