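import Vale.Agent.P011.H505.WangD
import Vale.Agent.P011.W.Sk1

/-!
The theorem of Wang in prime power degree over a field all of whose finite extensions have
surjective reduced norms.
-/

set_option linter.unusedSectionVars false
set_option linter.unusedSimpArgs false

open Matrix Module Polynomial

namespace Vale.Agent.P011.H505.Wang

open Vale.Agent.P011.W (HasNrd hasNrd_iff deg_pos exists_maxfield norm_maxfield
  exists_centralizer F0_conj)
open Vale.Agent.P011S (exists_split)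
open Vale.Agent.P011.W.HasNrd (ne_zero mul inv unique)

/-- All reduced norms over all finite extensions are surjective. -/
def NSur (F : Type) [Field F] : Prop :=
  ∀ (E : Type) [Field E] [Algebra F E] [FiniteDimensional F E] (C : Type) [DivisionRing C]
    [Algebra E C] [FiniteDimensional E C] [Algebra.IsCentral E C] (d : ℕ),
    finrank E C = d ^ 2 → ∀ y : E, y ≠ 0 → ∃ t : C, HasNrd E d t y

theorem NSur.ext {F : Type} [Field F] (h : NSur F) (E : Type) [Field E] [Algebra F E]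
    [FiniteDimensional F E] : NSur E := by
  intro E' _ _ _ C _ _ _ _ d hC y hy
  let _ : Algebra F E' := ((algebraMap E E').comp (algebraMap F E)).toAlgebra
  have : IsScalarTower F E E' := IsScalarTower.of_algebraMap_eq fun x => rfl
  have : FiniteDimensional F E' := Module.Finite.trans E E'
  exact h E' C d hC y hy

theorem one_of_deg_one {E Δ Ω : Type} [Field E] [DivisionRing Δ] [Algebra E Δ]
    [FiniteDimensional E Δ] [Field Ω] [Algebra E Ω] (h1 : finrank E Δ = 1)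
    (f2 : Δ →ₐ[E] Matrix (Fin 1) (Fin 1) Ω) {δ : Δ} (hδ : (f2 δ).det = 1) : δ = 1 := by
  obtain ⟨e, rfl⟩ : δ ∈ Set.range (algebraMap E Δ) := by
    have h2 := finrank_eq_one_iff_of_nonzero' (1 : Δ) one_ne_zero |>.mp h1 δ
    obtain ⟨c, hc⟩ := h2
    exact ⟨c, by rw [← hc, Algebra.smul_def, mul_one]⟩
  rw [AlgHom.commutes, Matrix.det_fin_one, Matrix.algebraMap_matrix_apply, if_pos rfl] at hδ
  have h3 : e = 1 := (algebraMap E Ω).injective (by rw [hδ, map_one])
  rw [h3, map_one]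

/-- The inductive step. -/
theorem sk1_step {p e : ℕ} (hp : p.Prime) {E D A : Type} [Field E] [Infinite E]
    (hE : NSur E)
    [DivisionRing D] [Algebra E D] [FiniteDimensional E D] [Algebra.IsCentral E D] [CommGroup A]
    (hD : finrank E D = (p ^ (e + 1)) ^ 2) {L Z : Type} [Field L] [Algebra E L]
    (hL : finrank E L = p ^ (e + 1)) (j : L →ₐ[E] D) [Field Z] [Infinite Z] [Algebra E Z]
    [Algebra Z L] [IsScalarTower E Z L] [FiniteDimensional E Z] [IsGalois E Z]
    (hZ : finrank E Z = p) (u : L) (hu : Algebra.norm E u = 1)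
    (IH : ∀ (C : Type) [DivisionRing C] [Algebra Z C] [FiniteDimensional Z C]
      [Algebra.IsCentral Z C] (_ : finrank Z C = (p ^ e) ^ 2) (F0 : C → A)
      (_ : ∀ a b : C, a ≠ 0 → b ≠ 0 → F0 (a * b) = F0 a * F0 b) (_ : F0 (-1) = 1) (u : C)
      (_ : HasNrd Z (p ^ e) u 1), ∃ k, Nat.Coprime k p ∧ F0 u ^ k = 1)
    (F1 : D → A) (hmul : ∀ a b : D, a ≠ 0 → b ≠ 0 → F1 (a * b) = F1 a * F1 b)
    (hneg : F1 (-1) = 1) : ∃ k, Nat.Coprime k p ∧ F1 (j u) ^ k = 1 := by
  have hfL : FiniteDimensional E L :=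
    Module.finite_of_finrank_pos (by rw [hL]; exact pow_pos hp.pos _)
  have hfZL : FiniteDimensional Z L := Module.Finite.of_restrictScalars_finite E Z L
  have hu0 : u ≠ 0 := by
    rintro rfl
    rw [Algebra.norm_zero] at hu
    exact zero_ne_one hu
  let jZ : Z →ₐ[E] D := j.comp (IsScalarTower.toAlgHom E Z L)
  have hjZ : ∀ z, jZ z = j (algebraMap Z L z) := fun z => rfl
  obtain ⟨C, _, _, _, _, ι, hC, hιZ, hιc⟩ := exists_centralizer (F := E) (D := D) (m := p ^ e)
    (n := p) (by rw [hD, pow_succ' p e]) hZ hp.pos jZ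
  have hιinj : Function.Injective ι := ι.injective
  -- the maximal subfield in the centralizer
  have hcomm : ∀ l z, j l * jZ z = jZ z * j l := by
    intro l z
    rw [hjZ, ← map_mul, ← map_mul, mul_comm]
  choose c hc using fun l => hιc (j l) (hcomm l)
  let jC : L →ₐ[Z] C :=
    { toFun := c
      map_one' := hιinj (by rw [hc, map_one, map_one])
      map_mul' := fun x y => hιinj (by rw [hc, map_mul, map_mul, hc, hc])
      map_zero' := hιinj (by rw [hc, map_zero, map_zero])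
      map_add' := fun x y => hιinj (by rw [hc, map_add, map_add, hc, hc])
      commutes' := fun z => hιinj (by rw [hc, hιZ, hjZ]) }
  have hjC : ∀ l, ι (jC l) = j l := hc
  have hZL : finrank Z L = p ^ e := by
    have h1 := finrank_mul_finrank E Z L
    rw [hZ, hL, pow_succ'] at h1
    exact Nat.eq_of_mul_eq_mul_left hp.pos h1
  have hy0 : HasNrd Z (p ^ e) (jC u) (Algebra.norm Z u) := hasNrd_norm hC hZL jC u
  have hn : Algebra.norm E (Algebra.norm Z u) = 1 := by rw [Algebra.norm_norm, hu]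
  -- Hilbert 90
  have : Fact p.Prime := ⟨hp⟩
  have hcard : Nat.card (Z ≃ₐ[E] Z) = p := by rw [IsGalois.card_aut_eq_finrank, hZ]
  have hcyc : IsCyclic (Z ≃ₐ[E] Z) := isCyclic_of_prime_card hcard
  obtain ⟨σ, hσ⟩ := hcyc.exists_generator
  have hσ1 : σ ≠ 1 := by
    rintro rfl
    have h1 : ∀ τ : Z ≃ₐ[E] Z, τ = 1 := fun τ => by
      have := hσ τ
      rwa [Subgroup.zpowers_one_eq_bot, Subgroup.mem_bot] at this
    have h2 : Nat.card (Z ≃ₐ[E] Z) = 1 := by
      rw [Nat.card_eq_one_iff_unique]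
      exact ⟨⟨fun a b => (h1 a).trans (h1 b).symm⟩, ⟨1⟩⟩
    rw [hcard] at h2
    exact hp.one_lt.ne' h2
  obtain ⟨y, hy⟩ := groupCohomology.exists_div_of_norm_eq_one hσ hn
  have hy00 : (y : Z) ≠ 0 := y.ne_zero
  have hσy : σ (y : Z) ≠ 0 := by
    rw [Ne, EmbeddingLike.map_eq_zero_iff]; exact hy00
  -- Skolem-Noether
  obtain ⟨g, hg0, hg⟩ := skolem jZ (jZ.comp (σ : Z →ₐ[E] Z))
  have hg' : ∀ z, g * jZ z = jZ (σ z) * g := hg
  have hcomm' : ∀ x z, ι x * jZ z = jZ z * ι x := by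
    intro x z
    rw [← hιZ, ← map_mul, ← map_mul, Algebra.commutes]
  have hconj : ∀ x z, g * ι x * g⁻¹ * jZ z = jZ z * (g * ι x * g⁻¹) := by
    intro x z
    obtain ⟨w, rfl⟩ := σ.surjective z
    have h1 : g⁻¹ * jZ (σ w) = jZ w * g⁻¹ := by
      have h2 : jZ (σ w) = g * jZ w * g⁻¹ := by
        rw [hg', mul_assoc, mul_inv_cancel₀ hg0, mul_one]
      rw [h2, ← mul_assoc, ← mul_assoc, inv_mul_cancel₀ hg0, one_mul]
    calc g * ι x * g⁻¹ * jZ (σ w) = g * ι x * (g⁻¹ * jZ (σ w)) := mul_assoc _ _ _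
      _ = g * (ι x * jZ w) * g⁻¹ := by rw [h1]; simp only [mul_assoc]
      _ = g * jZ w * ι x * g⁻¹ := by rw [hcomm']; simp only [mul_assoc]
      _ = jZ (σ w) * (g * ι x * g⁻¹) := by rw [hg']; simp only [mul_assoc]
  choose κ0 hκ0 using fun x => hιc (g * ι x * g⁻¹) (hconj x)
  let κ : C →+* C :=
    { toFun := κ0
      map_one' := hιinj (by rw [hκ0, map_one, mul_one, mul_inv_cancel₀ hg0])
      map_mul' := fun x y => hιinj (by
        rw [hκ0, map_mul, map_mul, hκ0, hκ0]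
        simp only [mul_assoc, inv_mul_cancel_left₀ hg0])
      map_zero' := hιinj (by rw [hκ0, map_zero, mul_zero, zero_mul])
      map_add' := fun x y => hιinj (by rw [hκ0, map_add, map_add, hκ0, hκ0, mul_add, add_mul]) }
  have hκ : ∀ x, ι (κ x) = g * ι x * g⁻¹ := hκ0
  have hκZ : ∀ z, κ (algebraMap Z C z) = algebraMap Z C (σ z) := by
    intro z
    apply hιinj
    rw [hκ, hιZ, hιZ, hg', mul_assoc, mul_inv_cancel₀ hg0, mul_one]
  -- surjectivity of the reduced norm
  obtain ⟨t, ht⟩ := hE Z C (p ^ e) hC y hy00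
  have ht0 : t ≠ 0 := ht.ne_zero hC hy00
  have hκt : HasNrd Z (p ^ e) (κ t) (σ (y : Z)) := by
    rw [hasNrd_iff]
    intro Ω _ φ f hf
    have h1 := hasNrd_iff.mp ht Ω (φ.comp (σ : Z →+* Z)) (f.comp κ) (by
      intro z
      rw [RingHom.comp_apply, hκZ, hf]
      rfl)
    exact h1
  have hκt0 : κ t ≠ 0 := by
    rw [Ne, map_eq_zero]; exact ht0
  have hv : HasNrd Z (p ^ e) (jC u * κ t * t⁻¹) 1 := by
    have h1 := (hy0.mul hκt).mul (ht.inv ht0)
    have e1 : Algebra.norm Z u * σ (y : Z) * (y : Z)⁻¹ = 1 := by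
      rw [← hy]
      field_simp
    rwa [e1] at h1
  -- the induction hypothesis
  have hι0 : ∀ x : C, x ≠ 0 → ι x ≠ 0 := fun x hx => by rwa [Ne, map_eq_zero]
  obtain ⟨k, hk, hk1⟩ := IH C hC (fun x => F1 (ι x)) (fun a b ha hb => by
    rw [map_mul]; exact hmul _ _ (hι0 a ha) (hι0 b hb)) (by rw [map_neg, map_one]; exact hneg)
    _ hv
  refine ⟨k, hk, ?_⟩
  have hju : j u ≠ 0 := by rwa [Ne, map_eq_zero]
  have hιt : ι t ≠ 0 := hι0 t ht0
  have hιt' : g * ι t * g⁻¹ ≠ 0 := mul_ne_zero (mul_ne_zero hg0 hιt) (inv_ne_zero hg0)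
  have h1 : F1 (ι (jC u * κ t * t⁻¹)) * F1 (ι t) = F1 (j u) * F1 (ι t) := by
    rw [map_mul, map_mul, hjC, hκ, map_inv₀, ← hmul _ _ (mul_ne_zero (mul_ne_zero hju hιt')
      (inv_ne_zero hιt)) hιt, inv_mul_cancel_right₀ hιt, hmul _ _ hju hιt',
      F0_conj hmul hg0 hιt]
  have h2 : F1 (ι (jC u * κ t * t⁻¹)) = F1 (j u) := mul_right_cancel h1
  change F1 (ι (jC u * κ t * t⁻¹)) ^ k = 1 at hk1
  rwa [h2] at hk1

theorem sk1_aux {p : ℕ} (hp : p.Prime) (A : Type) [CommGroup A] (e : ℕ) : ∀ (F D : Type)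
    [Field F] [Infinite F] (_ : NSur F) [DivisionRing D] [Algebra F D] [FiniteDimensional F D]
    [Algebra.IsCentral F D] (_ : finrank F D = (p ^ e) ^ 2) (F0 : D → A)
    (_ : ∀ a b : D, a ≠ 0 → b ≠ 0 → F0 (a * b) = F0 a * F0 b) (_ : F0 (-1) = 1) (u : D)
    (_ : HasNrd F (p ^ e) u 1), ∃ k, Nat.Coprime k p ∧ F0 u ^ k = 1 := by
  induction e with
  | zero =>
    intro F D _ _ _ _ _ _ _ hD F0 hmul hneg u hu
    refine ⟨1, Nat.coprime_one_left p, ?_⟩
    rw [pow_zero] at hD hu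
    obtain ⟨f⟩ := exists_split (K := F) (D := D) hD (AlgebraicClosure F)
    have h1 : u = 1 := one_of_deg_one (by rw [hD, one_pow]) f (by rw [hu, map_one])
    have h2 : F0 1 * F0 1 = F0 1 := by rw [← hmul 1 1 one_ne_zero one_ne_zero, mul_one]
    rw [h1, pow_one]
    exact mul_eq_left.mp h2
  | succ e ih =>
    intro F D _ _ hNS _ _ _ _ hD F0 hmul hneg u hu
    obtain ⟨f⟩ := exists_split (K := F) (D := D) hD (AlgebraicClosure F)
    have huu : u ≠ 0 := hu.ne_zero hD one_ne_zero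
    obtain ⟨x, y, hx, hy, L, _, _, _, _, j0, u0, hL, hj0⟩ := exists_sep_maxfield hD f u
    have hc0 : x * y * x⁻¹ * y⁻¹ ≠ 0 :=
      mul_ne_zero (mul_ne_zero (mul_ne_zero hx hy) (inv_ne_zero hx)) (inv_ne_zero hy)
    have hFc : F0 (x * y * x⁻¹ * y⁻¹) = 1 := by
      have h1 : F0 (x * y * x⁻¹) = F0 y := Vale.Agent.P011.W.F0_conj hmul hx hy
      have h2 : F0 (x * y * x⁻¹ * y⁻¹ * y) = F0 (x * y * x⁻¹ * y⁻¹) * F0 y :=
        hmul _ _ hc0 hy
      rw [inv_mul_cancel_right₀ hy, h1] at h2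
      exact (mul_eq_right.mp h2.symm)
    have hNc : HasNrd F (p ^ (e + 1)) (x * y * x⁻¹ * y⁻¹) 1 := by
      intro Ω _ _ g
      have h1 : (g x).det * (g x⁻¹).det = 1 := by
        rw [← Matrix.det_mul, ← map_mul, mul_inv_cancel₀ hx, map_one, Matrix.det_one]
      have h2 : (g y).det * (g y⁻¹).det = 1 := by
        rw [← Matrix.det_mul, ← map_mul, mul_inv_cancel₀ hy, map_one, Matrix.det_one]
      rw [map_mul, map_mul, map_mul, Matrix.det_mul, Matrix.det_mul, Matrix.det_mul, map_one]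
      calc (g x).det * (g y).det * (g x⁻¹).det * (g y⁻¹).det =
          ((g x).det * (g x⁻¹).det) * ((g y).det * (g y⁻¹).det) := by ring
        _ = 1 := by rw [h1, h2, one_mul]
    have hu' : HasNrd F (p ^ (e + 1)) (j0 u0) 1 := by
      rw [hj0]
      have h1 := hu.mul hNc
      rwa [one_mul] at h1
    have hFu : F0 (j0 u0) = F0 u := by rw [hj0, hmul _ _ huu hc0, hFc, mul_one]
    rw [← hFu]
    obtain ⟨N, _, _, _, _, _, E, L', Z, hcop, hL', hmem, hZL, hZg, hZ, hlift⟩ :=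
      exists_cyclic (F := F) (L := L) hp hL
    obtain ⟨D', _, _, _, _, ι, hD', hιF, hιn, htr⟩ := exists_coprime hp hD E hcop
    have hiE : Infinite E := Infinite.of_injective _ (algebraMap F E).injective
    have hiZ : Infinite Z := Infinite.of_injective _ (algebraMap E Z).injective
    obtain ⟨j, hj⟩ := hlift D' (ι.comp (j0 : L →+* D)) (fun x => by
      rw [RingHom.comp_apply]
      change ι (j0 (algebraMap F L x)) = _
      rw [j0.commutes, hιF])
    obtain ⟨F1, h1, h2, h3⟩ := htr A F0 hmul hneg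
    let _ : Algebra Z L' := (IntermediateField.inclusion hZL).toRingHom.toAlgebra
    have : IsScalarTower E Z L' := IsScalarTower.of_algebraMap_eq fun x =>
      ((IntermediateField.inclusion hZL).commutes x).symm
    have hju : j ⟨algebraMap L N u0, hmem u0⟩ = ι (j0 u0) := hj u0 (hmem u0)
    have hnr : Algebra.norm E (⟨algebraMap L N u0, hmem u0⟩ : L') = 1 := by
      have h4 := hasNrd_norm hD' hL' j ⟨algebraMap L N u0, hmem u0⟩
      rw [hju] at h4
      have h5 := hιn _ _ hu'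
      rw [map_one] at h5
      exact HasNrd.unique hD' h4 h5
    have hNE : NSur E := hNS.ext E
    have hNZ : NSur Z := hNE.ext Z
    obtain ⟨k, hk, hk1⟩ := sk1_step hp hNE hD' hL' j hZ ⟨algebraMap L N u0, hmem u0⟩ hnr
      (fun C _ _ _ _ hC F0 h4 h5 u h6 => ih Z C hNZ hC F0 h4 h5 u h6) F1 h1 h2
    refine ⟨finrank F E * k, Nat.Coprime.mul_left hcop hk, ?_⟩
    have hu0 : j0 u0 ≠ 0 := hu'.ne_zero hD one_ne_zero
    rw [pow_mul, ← h3 _ hu0, ← hju, hk1]

end Vale.Agent.P011.H505.Wang
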