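import Vale.Agent.P011.W.Part
import Vale.Agent.P011.H268.Csa

/-!
The corner of a representation of a matrix ring over a division algebra, in every characteristic.
-/

set_option linter.unusedSectionVars false
set_option linter.unusedSimpArgs false

open Matrix Module TensorProduct

namespace Vale.Agent.P011.H505.Wang

open Vale.Agent.P011S (dgU dgU_val bcf bcf_one_tmul exists_wed)
open Vale.Agent.P011.W (Spl HasNrd spl_iff deg_pos)

section corner

variable {E Δ Ω : Type} [Field E] [DivisionRing Δ] [Algebra E Δ] [Field Ω]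
  [Algebra E Ω] {n d : ℕ} [NeZero n]
  (G : Matrix (Fin n) (Fin n) Δ →ₐ[E] Matrix (Fin d) (Fin d) Ω)

theorem corner_mul (a b : Δ) : G (Matrix.single 0 0 a) * G (Matrix.single 0 0 b) =
    G (Matrix.single 0 0 (a * b)) := by
  rw [← map_mul, Matrix.single_mul_single_same]

/-- the corner subspace -/
noncomputable def cW : Submodule Ω (Fin d → Ω) :=
  LinearMap.range (Matrix.toLin' (G (Matrix.single 0 0 1)))

theorem mem_cW (a : Δ) (x : Fin d → Ω) : G (Matrix.single 0 0 a) *ᵥ x ∈ cW G := by
  refine ⟨G (Matrix.single 0 0 a) *ᵥ x, ?_⟩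
  rw [Matrix.toLin'_apply, Matrix.mulVec_mulVec, corner_mul, one_mul]

theorem cW_fix {x : Fin d → Ω} (hx : x ∈ cW G) : G (Matrix.single 0 0 1) *ᵥ x = x := by
  obtain ⟨y, rfl⟩ := hx
  rw [Matrix.toLin'_apply, Matrix.mulVec_mulVec, corner_mul, one_mul]

/-- the action of the division algebra on the corner -/
noncomputable def cR (a : Δ) : cW G →ₗ[Ω] cW G :=
  (Matrix.toLin' (G (Matrix.single 0 0 a))).restrict fun x _ => by
    rw [Matrix.toLin'_apply]; exact mem_cW G a x

theorem cR_apply (a : Δ) (x : cW G) :
    ((cR G a x : cW G) : Fin d → Ω) = G (Matrix.single 0 0 a) *ᵥ (x : Fin d → Ω) := rfl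

/-- the representation of the division algebra on the corner -/
noncomputable def cF : Δ →ₐ[E] Matrix (Fin (finrank Ω (cW G))) (Fin (finrank Ω (cW G))) Ω where
  toFun a := LinearMap.toMatrix (finBasis Ω (cW G)) (finBasis Ω (cW G)) (cR G a)
  map_one' := by
    have : cR G 1 = LinearMap.id := by
      ext x : 2
      rw [cR_apply, cW_fix G x.2, LinearMap.id_apply]
    rw [this, LinearMap.toMatrix_id]
  map_mul' a b := by
    have : cR G (a * b) = cR G a ∘ₗ cR G b := by
      ext x : 2
      rw [LinearMap.comp_apply, cR_apply, cR_apply, cR_apply, Matrix.mulVec_mulVec, corner_mul]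
    rw [this, LinearMap.toMatrix_comp _ (finBasis Ω (cW G)) _]
  map_zero' := by
    have : cR G 0 = 0 := by
      ext x : 2
      rw [cR_apply, Matrix.single_zero, map_zero, Matrix.zero_mulVec]
      rfl
    rw [this, map_zero]
  map_add' a b := by
    have : cR G (a + b) = cR G a + cR G b := by
      ext x : 2
      rw [LinearMap.add_apply, Submodule.coe_add, cR_apply, cR_apply, cR_apply,
        ← Matrix.add_mulVec, ← map_add, ← Matrix.single_add]
    rw [this, map_add]
  commutes' k := by
    have : cR G (algebraMap E Δ k) = (algebraMap E Ω k) • LinearMap.id := by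
      ext x : 2
      rw [cR_apply, LinearMap.smul_apply, LinearMap.id_apply, Submodule.coe_smul]
      have h1 : (Matrix.single 0 0 (algebraMap E Δ k) : Matrix (Fin n) (Fin n) Δ) =
          k • Matrix.single 0 0 1 := by
        rw [Matrix.smul_single, Algebra.smul_def, mul_one]
      have h2 : k • G (Matrix.single 0 0 1) = (algebraMap E Ω k) • G (Matrix.single 0 0 1) := by
        ext i j
        rw [Matrix.smul_apply, Matrix.smul_apply, Algebra.smul_def, smul_eq_mul]
      rw [h1, map_smul, h2, Matrix.smul_mulVec, cW_fix G x.2]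
    rw [this, map_smul, LinearMap.toMatrix_id]
    ext i j
    rw [Matrix.smul_apply, Matrix.algebraMap_matrix_apply, Matrix.one_apply]
    split_ifs <;> simp

theorem cF_det (a : Δ) : (cF G a).det = LinearMap.det (cR G a) := LinearMap.det_toMatrix _ _

theorem sum_single_one : (1 : Matrix (Fin n) (Fin n) Δ) = ∑ i, Matrix.single i i 1 := by
  ext a b
  rw [Matrix.sum_apply]
  by_cases hab : a = b
  · subst hab
    rw [Matrix.one_apply_eq, Finset.sum_eq_single a]
    · simp
    · intro c _ hc; rw [Matrix.single_apply_of_row_ne hc]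
    · intro h; exact absurd (Finset.mem_univ _) h
  · rw [Matrix.one_apply_ne hab, Finset.sum_eq_zero]
    intro c _
    by_cases hc : c = a
    · subst hc; rw [Matrix.single_apply_of_col_ne _ _ hab]
    · rw [Matrix.single_apply_of_row_ne hc]

/-- the representation space is the sum of the images of the corner -/
noncomputable def cEquiv : (Fin d → Ω) ≃ₗ[Ω] (Fin n → cW G) where
  toFun x i := ⟨G (Matrix.single 0 i 1) *ᵥ x, by
    have h1 : G (Matrix.single 0 i 1) *ᵥ x = G (Matrix.single 0 0 1) *ᵥ
        (G (Matrix.single 0 i 1) *ᵥ x) := by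
      rw [Matrix.mulVec_mulVec, ← map_mul, Matrix.single_mul_single_same, one_mul]
    rw [h1]
    exact mem_cW G 1 _⟩
  map_add' x y := by
    funext i
    apply Subtype.ext
    exact Matrix.mulVec_add (G (Matrix.single 0 i 1)) x y
  map_smul' c x := by
    funext i
    apply Subtype.ext
    exact Matrix.mulVec_smul (G (Matrix.single 0 i 1)) c x
  invFun w := ∑ i, G (Matrix.single i 0 1) *ᵥ (w i : Fin d → Ω)
  left_inv x := by
    change ∑ i, G (Matrix.single i 0 1) *ᵥ (G (Matrix.single 0 i 1) *ᵥ x) = x
    have h1 : ∀ i : Fin n, G (Matrix.single i 0 1) *ᵥ (G (Matrix.single 0 i 1) *ᵥ x) =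
        G (Matrix.single i i 1) *ᵥ x := by
      intro i
      rw [Matrix.mulVec_mulVec, ← map_mul, Matrix.single_mul_single_same, one_mul]
    rw [Finset.sum_congr rfl fun i _ => h1 i, ← Matrix.sum_mulVec, ← map_sum, ← sum_single_one,
      map_one, Matrix.one_mulVec]
  right_inv w := by
    funext i
    apply Subtype.ext
    change G (Matrix.single 0 i 1) *ᵥ (∑ j, G (Matrix.single j 0 1) *ᵥ (w j : Fin d → Ω)) = w i
    rw [Matrix.mulVec_sum, Finset.sum_eq_single i]
    · rw [Matrix.mulVec_mulVec, ← map_mul, Matrix.single_mul_single_same, one_mul,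
        cW_fix G (w i).2]
    · intro j _ hj
      rw [Matrix.mulVec_mulVec, ← map_mul, Matrix.single_mul_single_of_ne (h := Ne.symm hj),
        map_zero, Matrix.zero_mulVec]
    · intro h
      exact absurd (Finset.mem_univ _) h

theorem corner_dim : n * finrank Ω (cW G) = d := by
  have h1 := (cEquiv G).finrank_eq
  rw [Module.finrank_pi_fintype, Module.finrank_pi_fintype, Finset.sum_const, Finset.sum_const,
    Finset.card_univ, Finset.card_univ, Fintype.card_fin, Fintype.card_fin,
    smul_eq_mul, smul_eq_mul, Module.finrank_self, mul_one] at h1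
  exact h1.symm

theorem corner_det (δ : Δˣ) : (G (dgU 0 δ : (Matrix (Fin n) (Fin n) Δ)ˣ)).det =
    (cF G (δ : Δ)).det := by
  have hdg : ((dgU 0 δ : (Matrix (Fin n) (Fin n) Δ)ˣ) : Matrix (Fin n) (Fin n) Δ) =
      1 + Matrix.single 0 0 ((δ : Δ) - 1) := by
    rw [dgU_val]
    ext i j
    rw [Matrix.diagonal_apply, Matrix.add_apply, Matrix.one_apply, Matrix.single_apply]
    by_cases hij : i = j
    · subst hij
      by_cases hi : i = 0
      · subst hi; simp
      · simp [hi, Function.update_of_ne hi, Ne.symm hi]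
    · rw [if_neg hij, if_neg hij, if_neg, add_zero]
      rintro ⟨rfl, rfl⟩
      exact hij rfl
  have hle : cW G ≤ (cW G).comap (Matrix.toLin' (G (dgU 0 δ : (Matrix (Fin n) (Fin n) Δ)ˣ))) := by
    intro x hx
    rw [Submodule.mem_comap, Matrix.toLin'_apply, hdg, map_add, map_one, Matrix.add_mulVec,
      Matrix.one_mulVec]
    exact (cW G).add_mem hx (mem_cW G _ _)
  have hres : (Matrix.toLin' (G (dgU 0 δ : (Matrix (Fin n) (Fin n) Δ)ˣ))).restrict hle =
      cR G (δ : Δ) := by
    ext x : 2
    rw [cR_apply, LinearMap.coe_restrict_apply, Matrix.toLin'_apply, hdg, map_add, map_one,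
      Matrix.add_mulVec, Matrix.one_mulVec]
    nth_rewrite 1 [← cW_fix G x.2]
    rw [← Matrix.add_mulVec, ← map_add, ← Matrix.single_add, add_sub_cancel]
  have hq : (cW G).mapQ (cW G) (Matrix.toLin' (G (dgU 0 δ : (Matrix (Fin n) (Fin n) Δ)ˣ))) hle =
      LinearMap.id := by
    apply LinearMap.ext
    intro y
    obtain ⟨x, rfl⟩ := Submodule.mkQ_surjective _ y
    rw [Submodule.mkQ_apply, Submodule.mapQ_apply, LinearMap.id_apply, Submodule.Quotient.eq,
      Matrix.toLin'_apply, hdg, map_add, map_one, Matrix.add_mulVec, Matrix.one_mulVec,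
      add_sub_cancel_left]
    exact mem_cW G _ _
  rw [← LinearMap.det_toLin', LinearMap.det_eq_det_mul_det (cW G) _ hle, hres, hq,
    LinearMap.det_id, mul_one, cF_det]

/-- the corner of a splitting -/
theorem exists_corner {q : ℕ} (hq : n * q = d) :
    ∃ f2 : Δ →ₐ[E] Matrix (Fin q) (Fin q) Ω,
      ∀ δ : Δˣ, (G (dgU 0 δ : (Matrix (Fin n) (Fin n) Δ)ˣ)).det = (f2 (δ : Δ)).det := by
  have h1 := corner_dim G
  have h2 : finrank Ω (cW G) = q :=
    Nat.eq_of_mul_eq_mul_left (Nat.pos_of_ne_zero (NeZero.ne n)) (h1.trans hq.symm)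
  subst h2
  exact ⟨cF G, corner_det G⟩

end corner

section dvd

variable {E Δ Ω : Type} [Field E] [DivisionRing Δ] [Algebra E Δ] [Field Ω] [Algebra E Ω]

/-- the degree of a finite splitting field is divisible by the degree -/
theorem corner_dvd [FiniteDimensional E Δ] {q : ℕ} (hq : finrank E Δ = q ^ 2) (hq0 : 0 < q)
    [FiniteDimensional E Ω] (f : Δ →ₐ[E] Matrix (Fin q) (Fin q) Ω) : q ∣ finrank E Ω := by
  let _ : Module Δ (Fin q → Ω) :=
    { smul := fun a v => f a *ᵥ v
      one_smul := fun v => by
        change f 1 *ᵥ v = v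
        rw [map_one, Matrix.one_mulVec]
      mul_smul := fun a b v => by
        change f (a * b) *ᵥ v = f a *ᵥ (f b *ᵥ v)
        rw [map_mul, Matrix.mulVec_mulVec]
      smul_zero := fun a => Matrix.mulVec_zero _
      smul_add := fun a v w => Matrix.mulVec_add _ _ _
      add_smul := fun a b v => by
        change f (a + b) *ᵥ v = f a *ᵥ v + f b *ᵥ v
        rw [map_add, Matrix.add_mulVec]
      zero_smul := fun v => by
        change f 0 *ᵥ v = 0
        rw [map_zero, Matrix.zero_mulVec] }
  have hsm : ∀ (a : Δ) (v : Fin q → Ω), a • v = f a *ᵥ v := fun a v => rfl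
  have : IsScalarTower E Δ (Fin q → Ω) := ⟨fun k a v => by
    rw [hsm, hsm, map_smul, Matrix.smul_mulVec]⟩
  have h1 := finrank_mul_finrank E Δ (Fin q → Ω)
  rw [hq, Module.finrank_pi_fintype, Finset.sum_const, Finset.card_univ, Fintype.card_fin,
    smul_eq_mul, pow_two, mul_assoc] at h1
  exact ⟨_, (Nat.eq_of_mul_eq_mul_left hq0 h1).symm⟩

end dvd

section gal

variable {K D : Type} [Field K] [DivisionRing D] [Algebra K D] [FiniteDimensional K D]
  [Algebra.IsCentral K D]

/-- a central division algebra splits over a finite Galois extension -/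
theorem exists_galois_split' {d : ℕ} (hD : finrank K D = d ^ 2) :
    ∃ (N : Type) (_ : Field N) (_ : Algebra K N) (_ : FiniteDimensional K N) (_ : IsGalois K N),
      Nonempty (D →ₐ[K] Matrix (Fin d) (Fin d) N) := by
  let Ω := SeparableClosure K
  obtain ⟨g0⟩ := Vale.Agent.P011.H268.exists_split_sepClosed (K := K) (A := D) (E := Ω) hD
  let β := finBasis K D
  let S : Set Ω := Set.range (fun t : Fin (finrank K D) × Fin d × Fin d => g0 (β t.1) t.2.1 t.2.2)
  have hSfin : S.Finite := Set.finite_range _
  have : Finite S := hSfin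
  have hfd0 : FiniteDimensional K (IntermediateField.adjoin K S) :=
    IntermediateField.finiteDimensional_adjoin
      fun x _ => (Algebra.IsAlgebraic.isAlgebraic (R := K) x).isIntegral
  let N := IntermediateField.normalClosure K (IntermediateField.adjoin K S) Ω
  have hS : ∀ x ∈ S, x ∈ N := fun x hx =>
    IntermediateField.le_normalClosure _ (IntermediateField.subset_adjoin K S hx)
  have hnormal : Normal K N := inferInstance
  have hsep : Algebra.IsSeparable K N := inferInstance
  have hgal : IsGalois K N := ⟨⟩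
  have hg : ∀ x i j, g0 x i j ∈ N := by
    intro x i j
    rw [← β.sum_repr x, map_sum, Matrix.sum_apply]
    refine sum_mem fun t _ => ?_
    rw [map_smul, Matrix.smul_apply, Algebra.smul_def]
    exact mul_mem (N.algebraMap_mem _) (hS _ ⟨(t, i, j), rfl⟩)
  refine ⟨N, inferInstance, inferInstance, inferInstance, hgal, ⟨?_⟩⟩
  refine
    { toFun := fun x => Matrix.of fun i j => ⟨g0 x i j, hg x i j⟩
      map_one' := ?_, map_mul' := ?_, map_zero' := ?_, map_add' := ?_, commutes' := ?_ }
  · refine Matrix.ext fun i j => Subtype.ext ?_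
    change g0 1 i j = ((1 : Matrix (Fin d) (Fin d) N) i j : N)
    rw [map_one, Matrix.one_apply, Matrix.one_apply]
    split_ifs <;> rfl
  · intro x y
    refine Matrix.ext fun i j => Subtype.ext ?_
    rw [Matrix.mul_apply]
    change g0 (x * y) i j = _
    rw [map_mul, Matrix.mul_apply, AddSubmonoidClass.coe_finsetSum]
    rfl
  · refine Matrix.ext fun i j => Subtype.ext ?_
    change g0 0 i j = _
    rw [map_zero]
    rfl
  · intro x y
    refine Matrix.ext fun i j => Subtype.ext ?_
    change g0 (x + y) i j = g0 x i j + g0 y i j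
    rw [map_add]
    rfl
  · intro c
    refine Matrix.ext fun i j => Subtype.ext ?_
    change g0 (algebraMap K D c) i j = ((algebraMap K (Matrix (Fin d) (Fin d) N) c) i j : N)
    rw [AlgHom.commutes, Matrix.algebraMap_matrix_apply, Matrix.algebraMap_matrix_apply]
    split_ifs
    · rfl
    · rfl

end gal

end Vale.Agent.P011.H505.Wang
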