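import Vale.Agent.P011.H505.WangB
import Vale.Agent.P011.W.Cyc
import Vale.Agent.P011.W.Sym
import Vale.Agent.P011.W.Nrd

/-!
Cyclic subextensions, the theorem of Skolem and Noether for separable subfields, in every
characteristic.
-/

set_option linter.unusedSectionVars false
set_option linter.unusedSimpArgs false

open Matrix Module TensorProduct Polynomial IntermediateField

namespace Vale.Agent.P011.H505.Wang

open Vale.Agent.P011S (bcf bcf_one_tmul exists_wed exists_split exists_sylow_field)
open Vale.Agent.P011.W (exists_galois_sub sandwich)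

/-- A5 Skolem-Noether for subfields of a division algebra -/
theorem skolem {K B : Type} [Field K] [DivisionRing B] [Algebra K B] [FiniteDimensional K B]
    [Algebra.IsCentral K B] {L : Type} [Field L] [Algebra K L] [FiniteDimensional K L]
    [Algebra.IsSeparable K L] (i j : L →ₐ[K] B) :
    ∃ g : B, g ≠ 0 ∧ ∀ l, g * i l = j l * g := by
  classical
  let pb := Field.powerBasisOfFiniteOfSeparable K L
  set α : L := pb.gen with hα
  set x : B := i α with hx
  set y : B := j α with hy
  set f : K[X] := minpoly K α with hf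
  set n := f.natDegree with hn
  have hint : IsIntegral K α := Algebra.IsIntegral.isIntegral α
  have hmon : f.Monic := minpoly.monic hint
  have hfx : aeval x f = 0 := by rw [hx, aeval_algHom_apply, minpoly.aeval, map_zero]
  have hfy : aeval y f = 0 := by rw [hy, aeval_algHom_apply, minpoly.aeval, map_zero]
  have hn0 : 0 < n := minpoly.natDegree_pos hint
  -- the sandwich
  let w : ℕ → B := fun a => ∑ k ∈ Finset.range (n + 1), if a < k then
    algebraMap K B (f.coeff k) * x ^ (k - 1 - a) else 0
  let Φ : B → B := fun d => ∑ a ∈ Finset.range n, y ^ a * d * w a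
  have hΦ : ∀ d, Φ d = ∑ k ∈ Finset.range (n + 1), algebraMap K B (f.coeff k) *
      ∑ a ∈ Finset.range k, y ^ a * d * x ^ (k - 1 - a) := by
    intro d
    have h1 : ∀ a, y ^ a * d * w a = ∑ k ∈ Finset.range (n + 1), if a < k then
        algebraMap K B (f.coeff k) * (y ^ a * d * x ^ (k - 1 - a)) else 0 := by
      intro a
      rw [Finset.mul_sum]
      refine Finset.sum_congr rfl fun k _ => ?_
      split_ifs with h
      · rw [← mul_assoc, ← mul_assoc, Algebra.commutes (f.coeff k) (y ^ a * d)]
      · rw [mul_zero]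
    change ∑ a ∈ Finset.range n, y ^ a * d * w a = _
    rw [Finset.sum_congr rfl fun a _ => h1 a, Finset.sum_comm]
    refine Finset.sum_congr rfl fun k hk => ?_
    rw [Finset.mem_range] at hk
    rw [← Finset.sum_filter, Finset.mul_sum]
    refine Finset.sum_congr ?_ fun _ _ => rfl
    ext a
    simp only [Finset.mem_filter, Finset.mem_range]
    omega
  have hcomm : ∀ d, y * Φ d = Φ d * x := by
    intro d
    have h1 : ∀ k : ℕ, y * (∑ a ∈ Finset.range k, y ^ a * d * x ^ (k - 1 - a)) -
        (∑ a ∈ Finset.range k, y ^ a * d * x ^ (k - 1 - a)) * x = y ^ k * d - d * x ^ k := by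
      intro k
      have h2 : y * (∑ a ∈ Finset.range k, y ^ a * d * x ^ (k - 1 - a)) =
          ∑ a ∈ Finset.range k, y ^ (a + 1) * d * x ^ (k - (a + 1)) := by
        rw [Finset.mul_sum]
        refine Finset.sum_congr rfl fun a ha => ?_
        rw [pow_succ', show k - 1 - a = k - (a + 1) by omega]
        simp only [mul_assoc]
      have h3 : (∑ a ∈ Finset.range k, y ^ a * d * x ^ (k - 1 - a)) * x =
          ∑ a ∈ Finset.range k, y ^ a * d * x ^ (k - a) := by
        rw [Finset.sum_mul]
        refine Finset.sum_congr rfl fun a ha => ?_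
        rw [Finset.mem_range] at ha
        rw [mul_assoc, ← pow_succ, show k - 1 - a + 1 = k - a by omega]
      rw [h2, h3, ← Finset.sum_sub_distrib,
        Finset.sum_range_sub (fun a => y ^ a * d * x ^ (k - a)) k]
      simp
    have h2 : y * Φ d - Φ d * x = 0 := by
      rw [hΦ, Finset.mul_sum, Finset.sum_mul, ← Finset.sum_sub_distrib]
      have h3 : ∀ k, y * (algebraMap K B (f.coeff k) *
          ∑ a ∈ Finset.range k, y ^ a * d * x ^ (k - 1 - a)) -
          algebraMap K B (f.coeff k) * (∑ a ∈ Finset.range k, y ^ a * d * x ^ (k - 1 - a)) * x =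
          algebraMap K B (f.coeff k) * y ^ k * d - d * (algebraMap K B (f.coeff k) * x ^ k) := by
        intro k
        have h4 : y * (algebraMap K B (f.coeff k) *
            ∑ a ∈ Finset.range k, y ^ a * d * x ^ (k - 1 - a)) =
            algebraMap K B (f.coeff k) * (y *
              ∑ a ∈ Finset.range k, y ^ a * d * x ^ (k - 1 - a)) := by
          rw [← mul_assoc, ← Algebra.commutes (f.coeff k) y, mul_assoc]
        have h5 : d * (algebraMap K B (f.coeff k) * x ^ k) =
            algebraMap K B (f.coeff k) * (d * x ^ k) := by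
          rw [← mul_assoc, ← Algebra.commutes (f.coeff k) d, mul_assoc]
        rw [h4, h5, mul_assoc (algebraMap K B (f.coeff k)) _ x, ← mul_sub, h1,
          mul_assoc _ (y ^ k) d, ← mul_sub]
      rw [Finset.sum_congr rfl fun k _ => h3 k, Finset.sum_sub_distrib, ← Finset.sum_mul,
        ← Finset.mul_sum]
      have h4 : ∀ z : B, ∑ k ∈ Finset.range (n + 1), algebraMap K B (f.coeff k) * z ^ k =
          aeval z f := by
        intro z
        rw [aeval_eq_sum_range]
        exact Finset.sum_congr rfl fun k _ => (Algebra.smul_def _ _).symm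
      rw [h4, h4, hfx, hfy, zero_mul, mul_zero, sub_zero]
    exact sub_eq_zero.mp h2
  obtain ⟨d, hd⟩ : ∃ d, Φ d ≠ 0 := by
    by_contra hcon
    push Not at hcon
    have hmy : minpoly K y = f := minpoly.algHom_eq j j.toRingHom.injective α
    have hli : LinearIndependent K fun a : Fin n => y ^ (a : ℕ) := by
      have h := linearIndependent_pow (K := K) y
      rw [hmy] at h
      exact h
    have h1 := sandwich (K := K) (fun a : Fin n => y ^ (a : ℕ)) hli Finset.univ
      (fun a => w a) (fun d => by
        rw [Fin.sum_univ_eq_sum_range (fun a => y ^ a * d * w a) n]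
        exact hcon d) ⟨n - 1, by omega⟩ (Finset.mem_univ _)
    have h2 : w (n - 1) = 1 := by
      change ∑ k ∈ Finset.range (n + 1), (if n - 1 < k then
        algebraMap K B (f.coeff k) * x ^ (k - 1 - (n - 1)) else 0) = 1
      rw [Finset.sum_eq_single_of_mem n (Finset.self_mem_range_succ n)]
      · rw [if_pos (by omega), Nat.sub_self, pow_zero, mul_one, hmon.coeff_natDegree, map_one]
      · intro k hk hkn
        rw [Finset.mem_range] at hk
        rw [if_neg (by omega)]
    have h1 : w (n - 1) = 0 := h1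
    rw [h2] at h1
    exact one_ne_zero h1
  refine ⟨Φ d, hd, fun l => ?_⟩
  obtain ⟨g, rfl⟩ : ∃ g : K[X], l = aeval α g := pb.exists_eq_aeval' l
  rw [← aeval_algHom_apply, ← aeval_algHom_apply]
  change Φ d * aeval x g = aeval y g * Φ d
  induction g using Polynomial.induction_on' with
  | add g₁ g₂ h₁ h₂ => rw [map_add, map_add, mul_add, add_mul, h₁, h₂]
  | monomial k c =>
    have h1 : ∀ k : ℕ, Φ d * x ^ k = y ^ k * Φ d := by
      intro k
      induction k with
      | zero => simp
      | succ k ih => rw [pow_succ, ← mul_assoc, ih, mul_assoc, ← hcomm, ← mul_assoc, ← pow_succ]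
    rw [aeval_monomial, aeval_monomial, ← mul_assoc, ← Algebra.commutes c (Φ d), mul_assoc, h1,
      mul_assoc]

/-- A cyclic subextension inside a Galois extension. -/
theorem cyclic_aux {F L N : Type} [Field F] [Field L] [Algebra F L]
    [FiniteDimensional F L] [Algebra.IsSeparable F L] [Field N] [Algebra F N] [Algebra L N] [IsScalarTower F L N]
    [FiniteDimensional F N] [IsGalois F N] {p e : ℕ} (hp : p.Prime)
    (hL : finrank F L = p ^ (e + 1)) :
    ∃ (E : IntermediateField F N) (L' Z : IntermediateField E N),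
      Nat.Coprime (finrank F E) p ∧ finrank E L' = p ^ (e + 1) ∧ (∀ l : L, algebraMap L N l ∈ L') ∧
      Z ≤ L' ∧ IsGalois E Z ∧ finrank E Z = p ∧
      ∀ (R : Type) [Ring R] [Algebra E R] (g : L →+* R)
        (_ : ∀ x : F, g (algebraMap F L x) = algebraMap E R (algebraMap F E x)),
        ∃ j : L' →ₐ[E] R, ∀ (l : L) (h : algebraMap L N l ∈ L'),
          j ⟨algebraMap L N l, h⟩ = g l := by
  have : Fact p.Prime := ⟨hp⟩
  obtain ⟨E, hcop, a, ha⟩ := exists_sylow_field (k := F) (N := N) p
  have hgalE : IsGalois E N := inferInstance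
  let pb := Field.powerBasisOfFiniteOfSeparable F L
  obtain ⟨α, hα⟩ : ∃ α, α = pb.gen := ⟨_, rfl⟩
  have hαi : IsIntegral F α := IsIntegral.of_finite F α
  have hdeg : (minpoly F α).natDegree = p ^ (e + 1) := by
    rw [← hL, hα, pb.natDegree_minpoly, pb.finrank]
  have hα' : minpoly F (algebraMap L N α) = minpoly F α :=
    minpoly.algebraMap_eq (algebraMap L N).injective α
  obtain ⟨β, hβ⟩ : ∃ β, β = algebraMap L N α := ⟨_, rfl⟩
  rw [← hβ] at hα'
  have hint : IsIntegral E β := IsIntegral.of_finite E _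
  have hdvd : minpoly E β ∣ (minpoly F α).map (algebraMap F E) := by
    rw [← hα']
    exact minpoly.dvd_map_of_isScalarTower F E _
  have hle : (minpoly E β).natDegree ≤ p ^ (e + 1) := by
    have h1 := natDegree_le_of_dvd hdvd (by
      rw [Ne, Polynomial.map_eq_zero]
      exact minpoly.ne_zero hαi)
    rwa [natDegree_map, hdeg] at h1
  have hfr : finrank E E⟮β⟯ = (minpoly E β).natDegree := IntermediateField.adjoin.finrank hint
  have hfr2 : finrank E E⟮β⟯ = p ^ (e + 1) := by
    have htow : IsScalarTower F E⟮β⟯ N := IsScalarTower.of_algebraMap_eq fun x => rfl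
    have hx : minpoly F (AdjoinSimple.gen E β) = minpoly F α := by
      rw [← hα']
      have h2 := minpoly.algebraMap_eq (A := F)
        (algebraMap E⟮β⟯ N).injective (AdjoinSimple.gen E β)
      rw [← h2, AdjoinSimple.algebraMap_gen]
    have hfin : Module.Finite F E⟮β⟯ := Module.Finite.trans E E⟮β⟯
    have h1 := minpoly.degree_dvd (K := F) (L := E⟮β⟯)
      (IsIntegral.of_finite F (AdjoinSimple.gen E β))
    rw [hx, hdeg, ← finrank_mul_finrank F E E⟮β⟯] at h1
    have h2 : p ^ (e + 1) ∣ finrank E E⟮β⟯ :=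
      (Nat.Coprime.pow_left _ (Nat.coprime_comm.mp hcop)).dvd_of_dvd_mul_left h1
    refine le_antisymm (hfr ▸ hle) (Nat.le_of_dvd ?_ h2)
    exact finrank_pos
  have hmin : minpoly E β = (minpoly F α).map (algebraMap F E) := by
    refine (Polynomial.eq_of_monic_of_dvd_of_natDegree_le (minpoly.monic hint)
      ((minpoly.monic hαi).map _) hdvd ?_).symm
    rw [natDegree_map, hdeg, ← hfr2, hfr]
  have hpoly : ∀ l : L, ∃ f : F[X], l = aeval α f := by
    intro l
    rw [hα]
    exact pb.exists_eq_aeval' l
  have hmap : ∀ f : F[X], algebraMap L N (aeval α f) = aeval β (f.map (algebraMap F E)) := by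
    intro f
    rw [hβ, ← aeval_algebraMap_apply, aeval_map_algebraMap]
  have hmem : ∀ l : L, algebraMap L N l ∈ E⟮β⟯ := by
    intro l
    obtain ⟨f, rfl⟩ := hpoly l
    rw [hmap]
    exact IntermediateField.algebra_adjoin_le_adjoin E {β}
      (Polynomial.aeval_mem_adjoin_singleton E β)
  obtain ⟨Z, hZ1, hZ2, hZ3⟩ := exists_galois_sub hp ha E⟮β⟯ (by
    rw [hfr2]
    exact (Nat.one_lt_pow (Nat.succ_ne_zero e) hp.one_lt).ne')
  refine ⟨E, E⟮β⟯, Z, hcop, hfr2, hmem, hZ1, hZ2, hZ3, ?_⟩
  intro R _ _ g hg
  have h1 : (algebraMap E R).comp (algebraMap F E) = g.comp (algebraMap F L) :=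
    RingHom.ext fun x => (hg x).symm
  have hβ1 : aeval (g α) (minpoly E β) = 0 := by
    rw [hmin, aeval_def, eval₂_map, h1, ← hom_eval₂, ← aeval_def, minpoly.aeval, map_zero]
  let pb' := IntermediateField.adjoin.powerBasis hint
  have hgen : pb'.gen = AdjoinSimple.gen E β := IntermediateField.adjoin.powerBasis_gen hint
  have hβ' : aeval (g α) (minpoly E pb'.gen) = 0 := by
    rw [hgen, IntermediateField.minpoly_gen]
    exact hβ1
  refine ⟨pb'.lift (g α) hβ', fun l h => ?_⟩
  obtain ⟨f, rfl⟩ := hpoly l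
  have h2 : (⟨algebraMap L N (aeval α f), h⟩ : E⟮β⟯) =
      aeval pb'.gen (f.map (algebraMap F E)) := by
    apply (algebraMap E⟮β⟯ N).injective
    change algebraMap L N (aeval α f) = _
    rw [hmap, hgen, ← aeval_algebraMap_apply, AdjoinSimple.algebraMap_gen]
  rw [h2, ← aeval_algHom_apply, PowerBasis.lift_gen, aeval_def, eval₂_map, h1, ← hom_eval₂,
    ← aeval_def]

/-- D1 a cyclic subextension after an extension of degree prime to `p` -/
theorem exists_cyclic {F L : Type} [Field F] [Field L] [Algebra F L]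
    [FiniteDimensional F L] [Algebra.IsSeparable F L] {p e : ℕ} (hp : p.Prime) (hL : finrank F L = p ^ (e + 1)) :
    ∃ (N : Type) (_ : Field N) (_ : Algebra F N) (_ : Algebra L N) (_ : IsScalarTower F L N)
      (_ : FiniteDimensional F N) (E : IntermediateField F N) (L' Z : IntermediateField E N),
      Nat.Coprime (finrank F E) p ∧ finrank E L' = p ^ (e + 1) ∧ (∀ l : L, algebraMap L N l ∈ L') ∧
      Z ≤ L' ∧ IsGalois E Z ∧ finrank E Z = p ∧
      ∀ (R : Type) [Ring R] [Algebra E R] (g : L →+* R)
        (_ : ∀ x : F, g (algebraMap F L x) = algebraMap E R (algebraMap F E x)),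
        ∃ j : L' →ₐ[E] R, ∀ (l : L) (h : algebraMap L N l ∈ L'),
          j ⟨algebraMap L N l, h⟩ = g l := by
  let Ω := SeparableClosure L
  have hsep : Algebra.IsSeparable F Ω := Algebra.IsSeparable.trans F L Ω
  have hcl : IsSepClosure F Ω := ⟨inferInstance, inferInstance⟩
  have hgal0 : IsGalois F Ω := inferInstance
  have hgal : IsGalois F (normalClosure F L Ω) := inferInstance
  exact ⟨normalClosure F L Ω, inferInstance, inferInstance, inferInstance, inferInstance,
    inferInstance, cyclic_aux hp hL⟩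


/-- The division part over an extension contained with prime power degree in a splitting field. -/
theorem exists_data_pow {K D E N : Type} [Field K] [DivisionRing D] [Algebra K D]
    [FiniteDimensional K D] [Algebra.IsCentral K D] [Field E] [Algebra K E] [FiniteDimensional K E]
    [Field N] [Algebra K N]
    [Algebra E N] [IsScalarTower K E N] [FiniteDimensional E N] {p a d : ℕ} (hp : p.Prime)
    (hN : finrank E N = p ^ a) (g : D →ₐ[K] Matrix (Fin d) (Fin d) N)
    (hD : finrank K D = d ^ 2) :
    ∃ (n : ℕ) (_ : NeZero n) (Δ : Type) (_ : DivisionRing Δ) (_ : Algebra E Δ)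
      (_ : FiniteDimensional E Δ) (_ : Algebra.IsCentral E Δ)
      (_ : E ⊗[K] D ≃ₐ[E] Matrix (Fin n) (Fin n) Δ) (j : ℕ),
      n * p ^ j = d ∧ finrank E Δ = (p ^ j) ^ 2 ∧ n ∣ finrank K E := by
  obtain ⟨n, q, hn, Δ, i1, i2, i3, i4, ψ, h2, h3⟩ := exists_part' hD E
  have hnpos : 0 < n := Nat.pos_of_ne_zero (NeZero.ne n)
  have hq0 : 0 < q := Vale.Agent.P011.W.deg_pos h3
  let G : Matrix (Fin n) (Fin n) Δ →ₐ[E] Matrix (Fin d) (Fin d) N :=
    (bcf g).comp (ψ.symm : Matrix (Fin n) (Fin n) Δ →ₐ[E] E ⊗[K] D)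
  obtain ⟨f2, -⟩ := exists_corner G h2
  have h4 := corner_dvd h3 hq0 f2
  rw [hN] at h4
  obtain ⟨j, hj, rfl⟩ := (Nat.dvd_prime_pow hp).mp h4
  refine ⟨n, hn, Δ, i1, i2, i3, i4, ψ, j, h2, h3, ?_⟩
  obtain ⟨L, j1, j2, j3, j0, u, hL, _⟩ :=
    Vale.Agent.P011.W.exists_maxfield (F := E) (D := Δ) h3 1
  obtain ⟨f3⟩ := Vale.Agent.P011.W.spl_iff.mp (Vale.Agent.P011.W.spl_of_maxfield h3 hL j0)
  let _ : Algebra K L := ((algebraMap E L).comp (algebraMap K E)).toAlgebra
  have : IsScalarTower K E L := IsScalarTower.of_algebraMap_eq fun x => rfl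
  have : FiniteDimensional K L := Module.Finite.trans E L
  have h5 := spl_of_part ψ h2 f3
  have h6 := dvd_of_spl hD L (Vale.Agent.P011.W.spl_iff.mpr h5)
  rw [← finrank_mul_finrank K E L, hL, ← h2] at h6
  exact Nat.dvd_of_mul_dvd_mul_right (pow_pos hp.pos j) h6

end Vale.Agent.P011.H505.Wang
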