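import Vale.Agent.P011.H505.WangC
import Vale.Agent.P011.RP.Basic

/-!
Every element of a central division algebra becomes an element with nonzero reduced trace after
multiplication with a commutator, and lies then in a separable maximal subfield.
-/

set_option linter.unusedSectionVars false
set_option linter.unusedSimpArgs false

open Matrix Module Polynomial

namespace Vale.Agent.P011.H505.Wang

open Vale.Agent.P011.W (HasNrd deg_pos exists_maxfield norm_maxfield)
open Vale.Agent.P011.RP (span_split)

section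

variable {F D : Type} [Field F] [Infinite F] [DivisionRing D] [Algebra F D]
  [FiniteDimensional F D] [Algebra.IsCentral F D] {d : ℕ}

/-- The characteristic polynomial in a splitting of an element of a maximal subfield. -/
theorem charpoly_maxfield (hD : finrank F D = d ^ 2) {L : Type} [Field L] [Algebra F L]
    (hL : finrank F L = d) (j : L →ₐ[F] D) {Ω : Type} [Field Ω] [Algebra F Ω]
    (f : D →ₐ[F] Matrix (Fin d) (Fin d) Ω) (b : Basis (Fin d) F L) (x : L) :
    (f (j x)).charpoly = (Algebra.leftMulMatrix b x).charpoly.map (algebraMap F Ω) := by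
  have hd := deg_pos hD
  have hfinL : FiniteDimensional F L := Module.finite_of_finrank_pos (by rw [hL]; exact hd)
  obtain ⟨P, hP⟩ : ∃ P, P = (f (j x)).charpoly := ⟨_, rfl⟩
  obtain ⟨Q, hQ⟩ : ∃ Q, Q = (Algebra.leftMulMatrix b x).charpoly.map (algebraMap F Ω) := ⟨_, rfl⟩
  have hPm : P.Monic := by rw [hP]; exact Matrix.charpoly_monic _
  have hQm : Q.Monic := by rw [hQ]; exact (Matrix.charpoly_monic _).map _
  have hev : ∀ c : F, (P ^ d).eval (algebraMap F Ω c) = (Q ^ d).eval (algebraMap F Ω c) := by
    intro c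
    have h1 : P.eval (algebraMap F Ω c) = (f (j (algebraMap F L c - x))).det := by
      rw [hP, Matrix.eval_charpoly, map_sub, map_sub, AlgHom.commutes, AlgHom.commutes]
      rfl
    have h2 : Q.eval (algebraMap F Ω c) =
        algebraMap F Ω (Algebra.norm F (algebraMap F L c - x)) := by
      rw [hQ, eval_map_apply, Matrix.eval_charpoly, Algebra.norm_eq_matrix_det b, map_sub,
        AlgHom.commutes]
      rfl
    rw [eval_pow, eval_pow, h1, h2, ← Vale.Agent.P011S.SF.norm_eq_det_pow hd hD f,
      norm_maxfield hD hL, map_pow]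
  have hPQ : P ^ d = Q ^ d := by
    refine Polynomial.eq_of_infinite_eval_eq _ _ ?_
    refine (Set.infinite_range_of_injective (algebraMap F Ω).injective).mono ?_
    rintro _ ⟨c, rfl⟩
    exact hev c
  have h1 : P ∣ Q := (UniqueFactorizationMonoid.pow_dvd_pow_iff_dvd hd.ne').mp hPQ.dvd
  have h2 : Q ∣ P := (UniqueFactorizationMonoid.pow_dvd_pow_iff_dvd hd.ne').mp hPQ.symm.dvd
  have h3 : P = Q := eq_of_monic_of_associated hPm hQm (associated_of_dvd_dvd h1 h2)
  rw [← hP, ← hQ, h3]

/-- The trace in a splitting of an element of a maximal subfield. -/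
theorem trace_maxfield (hD : finrank F D = d ^ 2) {L : Type} [Field L] [Algebra F L]
    (hL : finrank F L = d) (j : L →ₐ[F] D) {Ω : Type} [Field Ω] [Algebra F Ω]
    (f : D →ₐ[F] Matrix (Fin d) (Fin d) Ω) (x : L) :
    (f (j x)).trace = algebraMap F Ω (Algebra.trace F L x) := by
  have hd := deg_pos hD
  have hne : Nonempty (Fin d) := ⟨⟨0, hd⟩⟩
  have hfinL : FiniteDimensional F L := Module.finite_of_finrank_pos (by rw [hL]; exact hd)
  let b : Basis (Fin d) F L := Module.finBasisOfFinrankEq F L hL
  rw [Matrix.trace_eq_neg_charpoly_coeff, charpoly_maxfield hD hL j f b x, coeff_map,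
    Algebra.trace_eq_matrix_trace b, Matrix.trace_eq_neg_charpoly_coeff
    (Algebra.leftMulMatrix b x), map_neg]

/-- The trace form is nondegenerate. -/
theorem eq_zero_of_trace (hD : finrank F D = d ^ 2) {Ω : Type} [Field Ω] [Algebra F Ω]
    (f : D →ₐ[F] Matrix (Fin d) (Fin d) Ω) {a : D} (h : ∀ y : D, (f (y * a)).trace = 0) :
    a = 0 := by
  have hd := deg_pos hD
  have h1 : ∀ Y : Matrix (Fin d) (Fin d) Ω, (Y * f a).trace = 0 := by
    intro Y
    have hY : Y ∈ Submodule.span Ω (Set.range f) := by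
      rw [span_split hd hD f]; exact Submodule.mem_top
    induction hY using Submodule.span_induction with
    | mem x hx => obtain ⟨x, rfl⟩ := hx; rw [← map_mul]; exact h x
    | zero => rw [zero_mul, Matrix.trace_zero]
    | add a b _ _ ha hb => rw [add_mul, Matrix.trace_add, ha, hb, add_zero]
    | smul c a _ ha => rw [smul_mul_assoc, Matrix.trace_smul, ha, smul_zero]
  have h2 : f a = 0 := by
    ext i k
    have h3 := h1 (Matrix.single k i 1)
    rw [Matrix.trace_single_mul, one_smul] at h3
    rw [h3, Matrix.zero_apply]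
  have hinj : Function.Injective f := by
    have : Nonempty (Fin d) := ⟨⟨0, hd⟩⟩
    exact (f : D →+* Matrix (Fin d) (Fin d) Ω).injective
  exact hinj (by rw [h2, map_zero])

/-- An element all of whose traces against the conjugates of `x` vanish commutes with `x`. -/
theorem comm_of_trace (hD : finrank F D = d ^ 2) {Ω : Type} [Field Ω] [Algebra F Ω]
    (f : D →ₐ[F] Matrix (Fin d) (Fin d) Ω) {w x : D}
    (h : ∀ y : D, y ≠ 0 → (f (w * (y * x * y⁻¹))).trace = 0) : x * w = w * x := by
  have hd := deg_pos hD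
  have hne : Nonempty (Fin d) := ⟨⟨0, hd⟩⟩
  have hinj : Function.Injective f := (f : D →+* Matrix (Fin d) (Fin d) Ω).injective
  rw [← sub_eq_zero]
  apply eq_zero_of_trace hD f
  intro y
  -- the polynomial
  obtain ⟨v, hv⟩ : ∃ v, v = w * (y * x - x * y) := ⟨_, rfl⟩
  let Cm : Ω →+* Polynomial Ω := C
  obtain ⟨g, hg⟩ : ∃ g : Polynomial Ω, g = Matrix.trace ((f v).map Cm *
      Matrix.adjugate (1 + (X : Polynomial Ω) • (f y).map Cm)) := ⟨_, rfl⟩
  have hge : ∀ c : Ω, g.eval c = (f v * adjugate (1 + c • f y)).trace := by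
    intro c
    have e1 : (evalRingHom c).mapMatrix ((f v).map Cm) = f v := by
      ext i k
      simp [Cm]
    have e2 : (evalRingHom c).mapMatrix (1 + (X : Polynomial Ω) • (f y).map Cm) =
        1 + c • f y := by
      ext i k
      rw [map_add, map_one, Matrix.add_apply, Matrix.add_apply, RingHom.mapMatrix_apply,
        Matrix.map_apply, Matrix.smul_apply, Matrix.smul_apply, Matrix.map_apply]
      simp only [Cm, coe_evalRingHom, map_one, smul_eq_mul, eval_add, eval_mul, eval_X, eval_C]
    have e3 : (evalRingHom c).mapMatrix ((f v).map Cm *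
        Matrix.adjugate (1 + (X : Polynomial Ω) • (f y).map Cm)) =
        f v * Matrix.adjugate (1 + c • f y) := by
      rw [map_mul, RingHom.map_adjugate, e1, e2]
    rw [hg, ← coe_evalRingHom, ← e3, AddMonoidHom.map_trace]
    rfl
  have hg0 : g = 0 := by
    refine Polynomial.eq_zero_of_infinite_isRoot g ?_
    have hfin : ({c : F | c = 0 ∨ 1 + c • y = 0} : Set F).Finite := by
      refine Set.Finite.subset (Set.Finite.union (Set.finite_singleton 0)
        (Set.Subsingleton.finite (s := {c : F | 1 + c • y = 0}) ?_)) ?_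
      · intro a ha b hb
        have ha' : 1 + a • y = 0 := ha
        have hb' : 1 + b • y = 0 := hb
        have h1 : (a - b) • y = 0 := by
          rw [sub_smul]
          have := sub_eq_zero.mpr (ha'.trans hb'.symm)
          rwa [add_sub_add_left_eq_sub] at this
        rcases smul_eq_zero.mp h1 with h2 | h2
        · exact sub_eq_zero.mp h2
        · rw [h2, smul_zero, add_zero] at ha'
          exact absurd ha' one_ne_zero
      · intro c hc
        exact hc
    have hinf : (algebraMap F Ω '' ({c : F | c = 0 ∨ 1 + c • y = 0}ᶜ)).Infinite :=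
      Set.Infinite.image (algebraMap F Ω).injective.injOn hfin.infinite_compl
    refine hinf.mono ?_
    rintro _ ⟨c, hc, rfl⟩
    have hc' : ¬ (c = 0 ∨ 1 + c • y = 0) := hc
    push Not at hc'
    obtain ⟨hc0, hz0⟩ := hc'
    change g.eval _ = 0
    obtain ⟨z, hz⟩ : ∃ z, z = 1 + c • y := ⟨_, rfl⟩
    rw [← hz] at hz0
    have hfz : f z = 1 + algebraMap F Ω c • f y := by
      rw [hz, map_add, map_one, map_smul]
      congr 1
      ext i k
      rw [Matrix.smul_apply, Matrix.smul_apply, Algebra.smul_def, smul_eq_mul]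
    rw [hge, ← hfz]
    have h1 := h z hz0
    have h2 := h 1 one_ne_zero
    rw [one_mul, inv_one, mul_one] at h2
    have h3 : w * (z * x * z⁻¹) = w * x + c • (v * z⁻¹) := by
      have e1 : z * x = x * z + c • (y * x - x * y) := by
        rw [hz, add_mul, mul_add, one_mul, mul_one, smul_mul_assoc, mul_smul_comm, smul_sub]
        abel
      rw [e1, add_mul, mul_inv_cancel_right₀ hz0, mul_add, smul_mul_assoc, mul_smul_comm, hv,
        mul_assoc]
    rw [h3, map_add, Matrix.trace_add, h2, zero_add, map_smul] at h1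
    have h4 : (f (v * z⁻¹)).trace = 0 := by
      have h5 : (c • f (v * z⁻¹)).trace = algebraMap F Ω c * (f (v * z⁻¹)).trace := by
        rw [Matrix.trace_smul, Algebra.smul_def]
      rw [h5] at h1
      exact (mul_eq_zero.mp h1).resolve_left ((_root_.map_ne_zero _).mpr hc0)
    have h5 : f z * f z⁻¹ = 1 := by rw [← map_mul, mul_inv_cancel₀ hz0, map_one]
    have h6 : adjugate (f z) = (f z).det • f z⁻¹ := by
      calc adjugate (f z) = adjugate (f z) * (f z * f z⁻¹) := by rw [h5, mul_one]
        _ = (f z).det • f z⁻¹ := by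
          rw [← mul_assoc, Matrix.adjugate_mul, smul_mul_assoc, one_mul]
    rw [h6, mul_smul_comm, Matrix.trace_smul, ← map_mul, h4, smul_zero]
  have h0 := hge 0
  rw [hg0, eval_zero, zero_smul, add_zero, Matrix.adjugate_one, mul_one] at h0
  have h1 : (f (y * (x * w - w * x))).trace = (f v).trace := by
    rw [hv]
    simp only [map_mul, map_sub, mul_sub, Matrix.trace_sub]
    congr 1
    · rw [← mul_assoc, Matrix.trace_mul_comm, ← mul_assoc]
    · rw [Matrix.trace_mul_comm, mul_assoc]
  rw [h1, ← h0]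

/-- The commutator. -/
theorem exists_trace_ne (hD : finrank F D = d ^ 2) {Ω : Type} [Field Ω] [Algebra F Ω]
    (f : D →ₐ[F] Matrix (Fin d) (Fin d) Ω) {u x : D} (hx : x ≠ 0) (hux : x * u ≠ u * x) :
    ∃ y : D, y ≠ 0 ∧ (f (u * (x * y * x⁻¹ * y⁻¹))).trace ≠ 0 := by
  by_contra hcon
  push Not at hcon
  apply hux
  have h1 := comm_of_trace hD f (w := u * x) (x := x⁻¹) fun y hy => by
    have h2 := hcon y hy
    rw [← h2]
    congr 2
    simp only [mul_assoc]
  rw [mul_inv_cancel_right₀ hx] at h1
  calc x * u = x * (x⁻¹ * (u * x)) := by rw [h1]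
    _ = u * x := by rw [← mul_assoc, mul_inv_cancel₀ hx, one_mul]

/-- **Separable maximal subfields.** -/
theorem exists_sep_maxfield (hD : finrank F D = d ^ 2) {Ω : Type} [Field Ω] [Algebra F Ω]
    (f : D →ₐ[F] Matrix (Fin d) (Fin d) Ω) (u : D) :
    ∃ (x y : D), x ≠ 0 ∧ y ≠ 0 ∧ ∃ (L : Type) (_ : Field L) (_ : Algebra F L)
      (_ : FiniteDimensional F L) (_ : Algebra.IsSeparable F L) (j : L →ₐ[F] D)
      (t : L), finrank F L = d ∧ j t = u * (x * y * x⁻¹ * y⁻¹) := by
  have hsep : ∀ (w : D), (f w).trace ≠ 0 → ∃ (L : Type) (_ : Field L) (_ : Algebra F L)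
      (_ : FiniteDimensional F L) (_ : Algebra.IsSeparable F L) (j : L →ₐ[F] D)
      (t : L), finrank F L = d ∧ j t = w := by
    intro w hw
    obtain ⟨L, i1, i2, i3, j, t, hL, rfl⟩ := exists_maxfield hD w
    refine ⟨L, i1, i2, i3, ?_, j, t, hL, rfl⟩
    by_contra hcon
    apply hw
    rw [trace_maxfield hD hL j f t, Algebra.trace_eq_zero_of_not_isSeparable hcon,
      LinearMap.zero_apply, map_zero]
  by_cases hc : ∃ x : D, x * u ≠ u * x
  · obtain ⟨x, hx⟩ := hc
    have hx0 : x ≠ 0 := by
      rintro rfl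
      exact hx (by rw [zero_mul, mul_zero])
    obtain ⟨y, hy, h1⟩ := exists_trace_ne hD f hx0 hx
    obtain ⟨L, i1, i2, i3, i4, j, t, hL, ht⟩ := hsep _ h1
    exact ⟨x, y, hx0, hy, L, i1, i2, i3, i4, j, t, hL, ht⟩
  · push Not at hc
    obtain ⟨w, hw⟩ : ∃ w : D, (f w).trace ≠ 0 := by
      by_contra hcon
      push Not at hcon
      exact one_ne_zero (eq_zero_of_trace hD f (a := (1 : D)) fun y => hcon _)
    obtain ⟨L, i1, i2, i3, i4, j, t, hL, ht⟩ := hsep _ hw
    obtain ⟨c, hcu⟩ : ∃ c : F, algebraMap F D c = u := by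
      have h1 : u ∈ Subalgebra.center F D := Subalgebra.mem_center_iff.mpr hc
      rw [Algebra.IsCentral.center_eq_bot] at h1
      exact Algebra.mem_bot.mp h1
    refine ⟨1, 1, one_ne_zero, one_ne_zero, L, i1, i2, i3, i4, j, algebraMap F L c, hL, ?_⟩
    rw [AlgHom.commutes, hcu]
    simp

end

end Vale.Agent.P011.H505.Wang
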