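import Vale.Agent.P011.H505.WangE

/-!
The theorem of Wang: the reduced Whitehead group is trivial over an infinite field of
characteristic different from two all of whose finite extensions have surjective reduced norms.
-/

set_option linter.unusedSectionVars false
set_option linter.unusedSimpArgs false

open Matrix Module TensorProduct

namespace Vale.Agent.P011.H505.Wang

open Vale.Agent.P011S (bcf bcf_one_tmul exists_sylow_field mdU mdU_diagonal trf trf_one_tmul dgU
  dgU_val dgU_mul exists_dgU chi_tvU)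
open Vale.Agent.P011.W (HasNrd deg_pos)

section diag

variable {n Δ C : Type} [Fintype n] [DecidableEq n] [DivisionRing Δ] [CommGroup C]

/-- The scalar units. -/
def scU (n : Type) [Fintype n] [DecidableEq n] (δ : Δˣ) : (Matrix n n Δ)ˣ :=
  Units.map (Matrix.scalar n : Δ →+* Matrix n n Δ).toMonoidHom δ

theorem scU_val (δ : Δˣ) : ((scU n δ : (Matrix n n Δ)ˣ) : Matrix n n Δ) =
    Matrix.diagonal fun _ => (δ : Δ) := rfl

theorem scU_mul (a b : Δˣ) : scU n (a * b) = scU n a * scU n b := map_mul _ _ _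

/-- The unit of a permutation. -/
def pmU (σ : Equiv.Perm n) : (Matrix n n Δ)ˣ where
  val := (1 : Matrix n n Δ).submatrix σ (Equiv.refl n)
  inv := (1 : Matrix n n Δ).submatrix σ.symm (Equiv.refl n)
  val_inv := by
    rw [Matrix.one_submatrix_mul, Matrix.submatrix_submatrix]
    ext i j
    simp [Matrix.one_apply]
  inv_val := by
    rw [Matrix.one_submatrix_mul, Matrix.submatrix_submatrix]
    ext i j
    simp [Matrix.one_apply]

theorem chi_dgU_eq (χ : (Matrix n n Δ)ˣ →* C) (i j : n) (δ : Δˣ) :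
    χ (dgU i δ) = χ (dgU j δ) := by
  have h1 : pmU (Equiv.swap i j) * dgU i δ = dgU j δ * pmU (Equiv.swap i j) := by
    apply Units.ext
    rw [Units.val_mul, Units.val_mul, dgU_val, dgU_val]
    change (1 : Matrix n n Δ).submatrix (Equiv.swap i j) (Equiv.refl n) * _ =
      _ * (1 : Matrix n n Δ).submatrix (Equiv.swap i j) (Equiv.refl n)
    rw [Matrix.one_submatrix_mul]
    ext k l
    rw [Matrix.diagonal_mul]
    change Matrix.diagonal (Function.update (1 : n → Δ) i (δ : Δ)) (Equiv.swap i j k) l =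
      Function.update (1 : n → Δ) j (δ : Δ) k * (1 : Matrix n n Δ) (Equiv.swap i j k) l
    by_cases hkl : Equiv.swap i j k = l
    · subst hkl
      rw [Matrix.diagonal_apply_eq, Matrix.one_apply_eq, mul_one]
      by_cases hk : k = j
      · subst hk
        rw [Equiv.swap_apply_right, Function.update_self, Function.update_self]
      · rw [Function.update_of_ne hk, Function.update_of_ne]
        · rfl
        · intro h
          apply hk
          have h3 := congrArg (Equiv.swap i j) h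
          rwa [Equiv.swap_apply_self, Equiv.swap_apply_left] at h3
    · rw [Matrix.diagonal_apply_ne _ hkl, Matrix.one_apply_ne hkl, mul_zero]
  have h2 := congrArg χ h1
  rw [map_mul, map_mul, mul_comm] at h2
  exact mul_right_cancel h2

theorem chi_diag (χ : (Matrix n n Δ)ˣ →* C) (δ : Δˣ) : ∀ (S : Finset n) (g : (Matrix n n Δ)ˣ),
    (g : Matrix n n Δ) = Matrix.diagonal (fun i => if i ∈ S then (δ : Δ) else 1) →
    χ g = ∏ i ∈ S, χ (dgU i δ) := by
  intro S
  induction S using Finset.induction_on with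
  | empty =>
    intro g hg
    have h1 : g = 1 := by
      apply Units.ext
      rw [hg]
      simp
    rw [h1, map_one, Finset.prod_empty]
  | insert a S ha ih =>
    intro g hg
    have h1 : (((dgU a δ)⁻¹ * g : (Matrix n n Δ)ˣ) : Matrix n n Δ) =
        Matrix.diagonal (fun i => if i ∈ S then (δ : Δ) else 1) := by
      rw [Units.val_mul, hg]
      change Matrix.diagonal (Function.update 1 a ((δ⁻¹ : Δˣ) : Δ)) * _ = _
      rw [Matrix.diagonal_mul_diagonal]
      congr 1
      funext k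
      by_cases hk : k = a
      · subst hk
        simp [ha]
      · simp [Function.update_of_ne hk, hk]
    have h2 := ih _ h1
    rw [Finset.prod_insert ha, ← h2, map_mul, map_inv, mul_inv_cancel_left]

theorem chi_scU (χ : (Matrix n n Δ)ˣ →* C) (i : n) (δ : Δˣ) :
    χ (scU n δ) = χ (dgU i δ) ^ Fintype.card n := by
  rw [chi_diag χ δ Finset.univ (scU n δ) (by
    rw [scU_val]
    congr 1
    funext k
    rw [if_pos (Finset.mem_univ k)]), Finset.prod_congr rfl fun k _ => chi_dgU_eq χ k i δ,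
    Finset.prod_const, Finset.card_univ]

end diag

section

variable {K D F : Type} [Field K] [Infinite K] [DivisionRing D] [Algebra K D]
  [FiniteDimensional K D] [Algebra.IsCentral K D] [Field F] [Algebra K F]
  {A : Type} [CommGroup A] (F0 : D → A)
  (hmul : ∀ a b : D, a ≠ 0 → b ≠ 0 → F0 (a * b) = F0 a * F0 b) (hneg : F0 (-1) = 1)

include hmul hneg

theorem sk1_part_gen (hNS : NSur K) (h2 : (2 : K) ≠ 0) {p d : ℕ} (hp : p.Prime)
    (hD : finrank K D = d ^ 2) (f : D →ₐ[K] Matrix (Fin d) (Fin d) F) {u : D}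
    (hu : (f u).det = 1) : ∃ e, Nat.Coprime e p ∧ F0 u ^ e = 1 := by
  classical
  have : Fact p.Prime := ⟨hp⟩
  have hd : 0 < d := deg_pos hD
  have hu0 : u ≠ 0 := by
    rintro rfl
    have : Nonempty (Fin d) := ⟨⟨0, hd⟩⟩
    rw [map_zero, Matrix.det_zero] at hu
    exact zero_ne_one hu
  obtain ⟨N, _, _, _, _, ⟨g⟩⟩ := exists_galois_split' (K := K) (D := D) hD
  obtain ⟨E, hcop, a, ha⟩ := exists_sylow_field (k := K) (N := N) p
  obtain ⟨n, hn, Δ, i1, i2, i3, i4, ψ, j, hnq, hΔ, hnE⟩ := exists_data_pow hp ha g hD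
  have hcopn : Nat.Coprime n p := Nat.Coprime.coprime_dvd_left hnE hcop
  have hiE : Infinite E := Infinite.of_injective _ (algebraMap K E).injective
  have hNE : NSur E := hNS.ext E
  have h2Δ : (2 : Δ) ≠ 0 := by
    have h3 : (2 : Δ) = algebraMap E Δ (algebraMap K E 2) := by rw [map_ofNat, map_ofNat]
    rw [h3]
    exact (_root_.map_ne_zero _).mpr ((_root_.map_ne_zero _).mpr h2)
  -- a common extension
  let F' := AlgebraicClosure F
  let lift : E →ₐ[K] F' := IsAlgClosed.lift
  let algE : Algebra E F' := lift.toRingHom.toAlgebra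
  have htow : IsScalarTower K E F' := IsScalarTower.of_algebraMap_eq fun x => (lift.commutes x).symm
  let f' : D →ₐ[K] Matrix (Fin d) (Fin d) F' :=
    ((Algebra.ofId F F').restrictScalars K).mapMatrix.comp f
  have hf' : (f' u).det = 1 := by
    have h1 : f' u = (f u).map (algebraMap F F') := rfl
    have h2 := RingHom.map_det (algebraMap F F') (f u)
    rw [hu, map_one] at h2
    rw [h1]
    exact h2.symm
  let G : Matrix (Fin n) (Fin n) Δ →ₐ[E] Matrix (Fin d) (Fin d) F' :=
    (bcf f').comp (ψ.symm : Matrix (Fin n) (Fin n) Δ →ₐ[E] E ⊗[K] D)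
  obtain ⟨f2, hf2⟩ := exists_corner G hnq
  let b := finBasis K E
  let θ : (Matrix (Fin n) (Fin n) Δ)ˣ →* A := (mdU F0 hmul hneg (finrank K E)).comp
    (Units.map (((trf b : E ⊗[K] D →ₐ[K] _) : E ⊗[K] D →* _).comp
      (ψ.symm : Matrix (Fin n) (Fin n) Δ →* E ⊗[K] D)))
  let χ : (Matrix (Fin n) (Fin n) Δ)ˣ →* A × F'ˣ :=
    θ.prod (Units.map (Matrix.detMonoidHom.comp (G : _ →* Matrix (Fin d) (Fin d) F')))
  let U : (Matrix (Fin n) (Fin n) Δ)ˣ := Units.map
    ((ψ : E ⊗[K] D →* _).comp (Algebra.TensorProduct.includeRight : D →ₐ[K] E ⊗[K] D))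
    (Units.mk0 u hu0)
  obtain ⟨δ, hδ⟩ := exists_dgU χ (chi_tvU h2Δ χ) 0 U
  have hδ1 : θ U = θ (dgU 0 δ) := congrArg Prod.fst hδ
  have hδ2 : (G (U : Matrix (Fin n) (Fin n) Δ)).det =
      (G (dgU 0 δ : (Matrix (Fin n) (Fin n) Δ)ˣ)).det :=
    congrArg Units.val (congrArg Prod.snd hδ)
  have hU : ψ.symm (U : Matrix (Fin n) (Fin n) Δ) = 1 ⊗ₜ u := ψ.symm_apply_apply _
  have hθU : θ U = F0 u ^ finrank K E := by
    change mdU F0 hmul hneg (finrank K E) _ = _
    rw [mdU_diagonal F0 hmul hneg _ (fun _ => u) (fun _ => hu0), Finset.prod_const,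
      Finset.card_univ, Fintype.card_fin]
    change trf b (ψ.symm (U : Matrix (Fin n) (Fin n) Δ)) = _
    rw [hU, trf_one_tmul]
  have hδ3 : (f2 (δ : Δ)).det = 1 := by
    rw [← hf2, ← hδ2]
    change (bcf f' (ψ.symm (U : Matrix (Fin n) (Fin n) Δ))).det = 1
    rw [hU, bcf_one_tmul, hf']
  let F1 : Δ → A := fun x => if h : x = 0 then 1 else θ (scU (Fin n) (Units.mk0 x h))
  have hF1 : ∀ (x : Δ) (h : x ≠ 0), F1 x = θ (scU (Fin n) (Units.mk0 x h)) :=
    fun x h => dif_neg h
  have hδ4 : HasNrd E (p ^ j) (δ : Δ) 1 := hasNrd_of_det hΔ f2 (by rw [hδ3, map_one])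
  obtain ⟨k, hk, h1⟩ : ∃ k, Nat.Coprime k p ∧ F1 (δ : Δ) ^ k = 1 := by
    refine sk1_aux hp A j E Δ hNE hΔ F1 ?_ ?_ (δ : Δ) hδ4
    · intro x y hx hy
      rw [hF1 _ hx, hF1 _ hy, hF1 _ (mul_ne_zero hx hy), ← map_mul, ← scU_mul]
      congr 2
      exact Units.ext rfl
    · have hm : (-1 : Δ) ≠ 0 := neg_ne_zero.mpr one_ne_zero
      have hm' : (-1 : D) ≠ 0 := neg_ne_zero.mpr one_ne_zero
      rw [hF1 _ hm]
      change mdU F0 hmul hneg (finrank K E) _ = _
      rw [mdU_diagonal F0 hmul hneg _ (fun _ => -1) (fun _ => hm')]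
      · exact Finset.prod_eq_one fun _ _ => hneg
      · change trf b (ψ.symm ((scU (Fin n) (Units.mk0 (-1 : Δ) hm) : (Matrix (Fin n) (Fin n) Δ)ˣ) :
          Matrix (Fin n) (Fin n) Δ)) = _
        have e1 : ((scU (Fin n) (Units.mk0 (-1 : Δ) hm) : (Matrix (Fin n) (Fin n) Δ)ˣ) :
            Matrix (Fin n) (Fin n) Δ) = -1 := by
          rw [scU_val, Units.val_mk0]
          ext i k
          rw [Matrix.diagonal_apply, Matrix.neg_apply, Matrix.one_apply]
          split_ifs <;> simp
        rw [e1, map_neg, map_one, map_neg, map_one]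
        ext i k
        rw [Matrix.diagonal_apply, Matrix.neg_apply, Matrix.one_apply]
        split_ifs <;> simp
  refine ⟨finrank K E * (n * k), Nat.Coprime.mul_left hcop (Nat.Coprime.mul_left hcopn hk), ?_⟩
  have h3 : F1 (δ : Δ) = (F0 u ^ finrank K E) ^ n := by
    rw [hF1 _ δ.ne_zero, ← hθU, hδ1]
    have e1 : Units.mk0 (δ : Δ) δ.ne_zero = δ := Units.ext rfl
    rw [e1, chi_scU θ 0 δ, Fintype.card_fin]
  rw [pow_mul, pow_mul, ← h3, h1]

/-- **The theorem of Wang.** -/
theorem sk1_gen (hNS : NSur K) (h2 : (2 : K) ≠ 0) {d : ℕ}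
    (hD : finrank K D = d ^ 2) (f : D →ₐ[K] Matrix (Fin d) (Fin d) F) {u : D}
    (hu : (f u).det = 1) : F0 u = 1 := by
  rw [← orderOf_eq_one_iff]
  by_contra hne1
  obtain ⟨p, hp, hpo⟩ := Nat.exists_prime_and_dvd hne1
  obtain ⟨e, he, he1⟩ := sk1_part_gen F0 hmul hneg hNS h2 hp hD f hu
  have h5 : p ∣ e := hpo.trans (orderOf_dvd_of_pow_eq_one he1)
  have h7 := Nat.dvd_gcd h5 (dvd_refl p)
  rw [he.gcd_eq_one] at h7
  exact hp.one_lt.ne' (Nat.dvd_one.mp h7)

end

end Vale.Agent.P011.H505.Wang
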